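import Vale.Agent.P225.Cap.Profile

/-!
P225, module 15c (helper27): series of regular solutions are `C²` across the core `r = 0`.

On `capSet b = {x ∈ chart : r² < e^{2b}}` the term of a state is `capF(r²) Y(xc, θ)`, a smooth
function of the point; off the core it is `coef(log r) Y(sph)`.
-/

open Set Filter Topology

namespace Vale.Agent.P225.Cap

open Sphere (Y)

set_option maxSynthPendingDepth 3

noncomputable section

/-- The cap up to the time `b`, core included. -/
def capSet (b : ℝ) : Set (Pt 7) := {x | x ∈ chart ∧ rsq x < rho b}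

/-- The arguments of the basis functions: the first factor and the angle of the second. -/
def capMap (x : Pt 7) : Sphere.R44 := (xc x, (Real.sqrt (ys x))⁻¹ • yc x)

theorem isOpen_capSet (b : ℝ) : IsOpen (capSet b) :=
  contDiffOn_rsq.continuousOn.isOpen_inter_preimage isOpen_chart isOpen_Iio

theorem rsq_nonneg (x : Pt 7) : 0 ≤ rsq x :=
  show 0 ≤ ∑ i, xc x i * xc x i from Finset.sum_nonneg fun _ _ => mul_self_nonneg _

theorem mem_capSet_iff {b : ℝ} {x : Pt 7} :
    x ∈ capSet b ↔ x ∈ chart ∧ (rsq x = 0 ∨ tlog x < b) := by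
  refine and_congr_right fun _ => ?_
  rcases (rsq_nonneg x).eq_or_lt with h | h
  · simp [← h, rho_pos b]
  · rw [or_iff_right h.ne', tlog, div_lt_iff₀' two_pos, rho, Real.log_lt_iff_lt_exp h]

theorem rho_tlog {x : Pt 7} (hx : x ∈ chartOff) : rho (tlog x) = rsq x := rho_log hx.2

theorem contDiffOn_capMap : ContDiffOn ℝ 2 capMap chart := by
  refine ContDiffOn.prodMk (contDiffOn_pi.2 contDiffOn_xc) (contDiffOn_pi.2 fun i => ?_)
  simp only [Pi.smul_apply, smul_eq_mul]
  exact ((contDiff_ys.contDiffOn.sqrt fun _ hx => ne_of_gt hx).inv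
    fun _ hx => (Real.sqrt_pos.2 hx).ne').mul (contDiffOn_yc i)

theorem exists_unit {x : Pt 7} (hx : x ∈ chart) :
    ∃ ω θ : Fin 4 → ℝ, (∑ j, ω j ^ 2 = 1) ∧ (∑ j, θ j ^ 2 = 1) ∧
      capMap x = (Real.sqrt (rsq x) • ω, θ) := by
  have hθ : ∑ j, ((Real.sqrt (ys x))⁻¹ • yc x) j ^ 2 = 1 := by
    rw [sum_sq_smul, inv_pow, Real.sq_sqrt hx.le,
      show ∑ j, yc x j ^ 2 = ys x from (Finset.sum_congr rfl fun j _ => sq _).trans (ys_eq x)]
    exact inv_mul_cancel₀ hx.ne'
  rcases (rsq_nonneg x).eq_or_lt with h | h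
  · refine ⟨Pi.single 0 1, _, ?_, hθ, ?_⟩
    · simp [Pi.single_apply]
    · have h' : xc x = 0 := dotProduct_self_eq_zero.1 h.symm
      simp [capMap, h', ← h]
  · refine ⟨(Real.sqrt (rsq x))⁻¹ • xc x, _, ?_, hθ, ?_⟩
    · rw [sum_sq_smul, inv_pow, Real.sq_sqrt h.le,
        show ∑ j, xc x j ^ 2 = rsq x from Finset.sum_congr rfl fun j _ => sq _]
      exact inv_mul_cancel₀ h.ne'
    · rw [capMap, smul_smul, mul_inv_cancel₀ (Real.sqrt_pos.2 h).ne', one_smul]

/-- `|D rsq|² = O(rsq)`, and `D² rsq` is bounded, on compact parts of the chart. -/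
theorem exists_rsq_bound {S : Set (Pt 7)} (hS : IsCompact S) (hsub : S ⊆ chart) :
    ∃ C, 0 ≤ C ∧ ∀ x ∈ S,
      ‖fderiv ℝ rsq x‖ ^ 2 ≤ C * rsq x ∧ ‖fderiv ℝ (fderiv ℝ rsq) x‖ ≤ C := by
  choose A hA using fun i => hS.exists_bound_of_continuousOn
    (((contDiffOn_xc i).continuousOn_fderiv_of_isOpen isOpen_chart (by norm_num)).mono hsub)
  obtain ⟨A2, hA2⟩ := hS.exists_bound_of_continuousOn
    (((contDiffOn_rsq.fderiv_of_isOpen isOpen_chart (m := 1) (by norm_num)).continuousOn_fderiv_of_isOpen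
      isOpen_chart le_rfl).mono hsub)
  refine ⟨max A2 ((2 * ∑ i, |A i|) ^ 2), (sq_nonneg _).trans (le_max_right _ _), fun x hx =>
    ⟨?_, (hA2 x hx).trans (le_max_left _ _)⟩⟩
  have hd : ∀ i, HasFDerivAt (fun y => xc y i) (fderiv ℝ (fun y => xc y i) x) x :=
    hasFDerivAt_xc (hsub hx)
  have hq : HasFDerivAt rsq
      (∑ i, (xc x i • fderiv ℝ (fun y => xc y i) x + xc x i • fderiv ℝ (fun y => xc y i) x)) x := by
    show HasFDerivAt (fun y => ∑ i, xc y i * xc y i) _ x
    exact HasFDerivAt.fun_sum fun i _ => (hd i).fun_mul (hd i)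
  rw [hq.fderiv]
  have hn : ‖∑ i, (xc x i • fderiv ℝ (fun y => xc y i) x + xc x i • fderiv ℝ (fun y => xc y i) x)‖
      ≤ Real.sqrt (rsq x) * (2 * ∑ i, |A i|) := by
    rw [Finset.mul_sum, Finset.mul_sum]
    refine (norm_sum_le _ _).trans (Finset.sum_le_sum fun i _ => ?_)
    refine (norm_add_le _ _).trans ?_
    rw [norm_smul, Real.norm_eq_abs]
    have h1 : |xc x i| ≤ Real.sqrt (rsq x) := Real.abs_le_sqrt (by
      rw [sq]
      exact Finset.single_le_sum (f := fun j => xc x j * xc x j) (fun j _ => mul_self_nonneg _)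
        (Finset.mem_univ i))
    have := mul_le_mul h1 ((hA i x hx).trans (le_abs_self _)) (norm_nonneg _) (Real.sqrt_nonneg _)
    linarith
  refine (pow_le_pow_left₀ (norm_nonneg _) hn 2).trans ?_
  rw [mul_pow, Real.sq_sqrt (rsq_nonneg x), mul_comm]
  exact mul_le_mul_of_nonneg_right (le_max_right _ _) (rsq_nonneg x)

namespace CapData

variable {w : ℝ → Fin 3 → ℝ} {c : ℝ → ℝ} {K M : ℝ} (h : CapData w c K M) (b : ℝ)

/-- The term of a state on the cap, core included. -/
def coreTerm (i : St) (x : Pt 7) : ℝ := h.capF i.blk b (rsq x) * Y i (capMap x)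

theorem coreTerm_eq (i : St) {x : Pt 7} (hx : x ∈ chartOff) :
    h.coreTerm b i x = h.coef i.blk b (tlog x) * Y i (sph x) := by
  have hs : Real.sqrt (rsq x) = Real.exp (tlog x) := by
    rw [tlog, Real.exp_half, Real.exp_log hx.2]
  have hm : capMap x = (Real.sqrt (rsq x) • (sph x).1, (1 : ℝ) • (sph x).2) := by
    rw [capMap, one_smul]
    simp only [sph, smul_smul, mul_inv_cancel₀ (Real.sqrt_pos.2 hx.2).ne', one_smul]
  rw [coreTerm, hm, Sphere.Y_scale, one_pow, mul_one, ← rho_tlog hx, capF_rho, rho_tlog hx, hs,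
    ← Real.exp_nat_mul]
  have : Real.exp (-((i.blk.la : ℝ) * tlog x)) * Real.exp ((i.blk.la : ℝ) * tlog x) = 1 := by
    rw [← Real.exp_add, neg_add_cancel, Real.exp_zero]
  linear_combination (h.coef i.blk b (tlog x) * Y i (sph x)) * this

theorem hDq {U : Set (Pt 7)} (hU : U ⊆ chart) (x₀ : Pt 7) (hx : x₀ ∈ U) :
    ∃ C, ∀ᶠ x in 𝓝 x₀, ‖fderiv ℝ rsq x‖ ^ 2 ≤ C * rsq x := by
  obtain ⟨r, hr, hrU⟩ := Metric.nhds_basis_closedBall.mem_iff.1 (isOpen_chart.mem_nhds (hU hx))
  obtain ⟨C, -, hC⟩ := exists_rsq_bound (isCompact_closedBall x₀ r) hrU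
  exact ⟨C, Filter.mem_of_superset (Metric.closedBall_mem_nhds x₀ hr) fun x hx => (hC x hx).1⟩

theorem contDiffOn_capF_rsq (V : Blk) :
    ContDiffOn ℝ 2 (fun y => h.capF V b (rsq y)) (capSet b) :=
  (h.coreC2 V b).contDiffOn_comp (isOpen_capSet b) (contDiffOn_rsq.mono fun _ hx => hx.1)
    (fun x _ => rsq_nonneg x) (hDq fun _ hx => hx.1)

theorem contDiffOn_coreTerm (i : St) : ContDiffOn ℝ 2 (h.coreTerm b i) (capSet b) :=
  (h.contDiffOn_capF_rsq b i.blk).mul
    (((Sphere.contDiff_Y i).comp_contDiffOn contDiffOn_capMap).mono fun _ hx => hx.1)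

/-- Value and two derivatives of the radial factor. -/
theorem norm_iteratedFDeriv_capF_le (V : Blk) {x : Pt 7} (hx : x ∈ capSet b) {C : ℝ} (hC : 0 ≤ C)
    (h1 : ‖fderiv ℝ rsq x‖ ^ 2 ≤ C * rsq x) (h2 : ‖fderiv ℝ (fderiv ℝ rsq) x‖ ≤ C)
    {k : ℕ} (hk : k ≤ 2) :
    ‖iteratedFDerivWithin ℝ k (fun y => h.capF V b (rsq y)) (capSet b) x‖ ≤
      coreK K M b * (1 + 2 * C + C * rho b) * V.mu ^ 4 * h.capF V b (rsq x) := by
  set k4 := coreK K M b * V.mu ^ 4 with hk4
  have hk1 : 1 ≤ k4 := one_le_mul_of_one_le_of_one_le (h.one_le_coreK b)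
    (one_le_pow₀ (Blk.one_le_mu V))
  have hF := (h.capF_pos V b (rsq x)).le
  have hρ := rho_pos b
  have hq : ContDiffOn ℝ 2 rsq (capSet b) := contDiffOn_rsq.mono fun _ hx => hx.1
  have hcore := h.coreC2 V b
  rw [show coreK K M b * (1 + 2 * C + C * rho b) * V.mu ^ 4 * h.capF V b (rsq x)
    = (1 + 2 * C + C * rho b) * (k4 * h.capF V b (rsq x)) by ring,
    iteratedFDerivWithin_of_isOpen k (isOpen_capSet b) hx]
  have hkF : 0 ≤ k4 * h.capF V b (rsq x) := by positivity
  have hCρ : 0 ≤ C * rho b := by positivity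
  interval_cases k
  · rw [norm_iteratedFDeriv_zero, Real.norm_eq_abs, abs_of_nonneg hF]
    exact le_trans (le_mul_of_one_le_left hF hk1) (le_mul_of_one_le_left hkF (by linarith))
  · rw [norm_iteratedFDeriv_one, (hcore.hasFDerivAt_comp (isOpen_capSet b) hq hx).fderiv, norm_smul,
      Real.norm_eq_abs, mul_comm]
    refine mul_le_mul ?_ (h.abs_capF1_le V b) (abs_nonneg _) (by linarith)
    have := mul_le_mul_of_nonneg_left hx.2.le hC
    nlinarith [norm_nonneg (fderiv ℝ rsq x)]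
  · rw [← norm_iteratedFDeriv_fderiv, norm_iteratedFDeriv_one,
      (hcore.hasFDerivAt_fderiv_comp (isOpen_capSet b) hq (fun y _ => rsq_nonneg y)
        (hDq fun _ hy => hy.1) hx).fderiv]
    refine (CoreC2.norm_second_le _ _ h1).trans ?_
    have e1 := mul_le_mul_of_nonneg_left
      (h.abs_capF2_mul_le V b (rsq_nonneg x) hx.2.le) hC
    have e2 := mul_le_mul (h.abs_capF1_le V b (ρ := rsq x)) h2 (norm_nonneg _) hkF
    rw [← hk4] at e1 e2
    nlinarith

/-- **Series of regular solutions are locally `C²` summable up to the core** (`19 ≤ s`). -/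
theorem locallyC2Summable_core {s : ℕ} (hs : 19 ≤ s) {y : St → ℝ} {B : ℝ}
    (hy : ∀ i, |y i| ≤ B * (i.blk.mu ^ 2 / i.blk.mu ^ s)) :
    LocallyC2Summable (capSet b) (fun i x => y i * h.coreTerm b i x) := by
  intro x₀ hx₀
  obtain ⟨r, hr, hrU⟩ := Metric.nhds_basis_closedBall.mem_iff.1 ((isOpen_capSet b).mem_nhds hx₀)
  set S := Metric.closedBall x₀ r
  have hS : IsCompact S := isCompact_closedBall x₀ r
  have hSc : S ⊆ chart := fun x hx => (hrU hx).1
  obtain ⟨C, hC0, hC⟩ := exists_rsq_bound hS hSc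
  have hu := (isOpen_capSet b).uniqueDiffOn (𝕜 := ℝ)
  have hmap : ContDiffOn ℝ 2 capMap (capSet b) := contDiffOn_capMap.mono fun _ hx => hx.1
  obtain ⟨D1, hD1⟩ := hS.exists_bound_of_continuousOn
    ((hmap.continuousOn_iteratedFDerivWithin (m := 1) (by norm_num) hu).mono hrU)
  obtain ⟨D2, hD2⟩ := hS.exists_bound_of_continuousOn
    ((hmap.continuousOn_iteratedFDerivWithin (m := 2) le_rfl hu).mono hrU)
  set D := max 1 (max D1 D2)
  have hD : 1 ≤ D := le_max_left _ _
  set R := (1 + Real.sqrt (rho b)) ^ 2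
  set A := coreK K M b * (1 + 2 * C + C * rho b)
  have hA : 0 ≤ A := by
    have := h.one_le_coreK b
    have := (rho_pos b).le
    positivity
  refine ⟨r, hr, Metric.ball_subset_closedBall.trans hrU,
    fun i => B * (4 * A * (2 * 4096 * R * D ^ 2) * coreB K b ^ 2) *
      (i.blk.mu ^ 10 / i.blk.mu ^ s), (summable_pow_div (by omega)).mul_left _, fun i x hxb => ?_⟩
  have hxS : x ∈ S := Metric.ball_subset_closedBall hxb
  have hx : x ∈ capSet b := hrU hxS
  have hmu : 0 ≤ i.blk.mu := zero_le_one.trans (Blk.one_le_mu _)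
  have hF := (h.capF_pos i.blk b (rsq x)).le
  obtain ⟨ω, θ, hω, hθ, hxm⟩ := exists_unit (hSc hxS)
  have hY : ∀ k, k ≤ 2 → ‖iteratedFDerivWithin ℝ k (fun y => Y i (capMap y)) (capSet b) x‖ ≤
      2 * 4096 * R * D ^ 2 * i.blk.mu ^ 4 * Real.sqrt (rsq x) ^ (i.blk.la - 2) := by
    intro k hk
    have hcomp := norm_iteratedFDerivWithin_comp_le (g := Y i) (f := capMap) (n := k) (N := 2)
      (t := univ)
      (C := 4096 * i.blk.mu ^ 4 * (R * Real.sqrt (rsq x) ^ (i.blk.la - 2))) (D := D)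
      (Sphere.contDiff_Y i).contDiffOn hmap (by exact_mod_cast hk) uniqueDiffOn_univ hu
      (mapsTo_univ _ _) hx
      (fun j hj => by
        rw [iteratedFDerivWithin_univ, hxm]
        refine (norm_iteratedFDeriv_Y_core i hω hθ (Real.sqrt_nonneg _) (hj.trans hk)).trans ?_
        gcongr
        exact pow_le_pow_left₀ (by positivity) (by gcongr; exact hx.2.le) 2)
      (fun j h1 h2 => by
        have hD' : max D1 D2 ≤ D ^ j :=
          (le_max_right 1 _).trans (le_self_pow₀ hD (by omega))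
        have hj : j ≤ 2 := h2.trans hk
        interval_cases j
        · exact (hD1 x hxS).trans ((le_max_left _ _).trans hD')
        · exact (hD2 x hxS).trans ((le_max_right _ _).trans hD'))
    refine hcomp.trans ?_
    have hf : ((Nat.factorial k : ℕ) : ℝ) ≤ 2 := by interval_cases k <;> norm_num [Nat.factorial]
    calc (k.factorial : ℝ) * (4096 * i.blk.mu ^ 4 * (R * Real.sqrt (rsq x) ^ (i.blk.la - 2))) * D ^ k
        ≤ 2 * (4096 * i.blk.mu ^ 4 * (R * Real.sqrt (rsq x) ^ (i.blk.la - 2))) * D ^ 2 :=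
          mul_le_mul (mul_le_mul_of_nonneg_right hf (by positivity)) (pow_le_pow_right₀ hD hk)
            (by positivity) (by positivity)
      _ = _ := by ring
  have hB : 0 ≤ B * (i.blk.mu ^ 2 / i.blk.mu ^ s) := (abs_nonneg _).trans (hy i)
  have hall : ∀ k, k ≤ 2 → ‖iteratedFDeriv ℝ k (fun z => y i * h.coreTerm b i z) x‖ ≤
      B * (4 * A * (2 * 4096 * R * D ^ 2) * coreB K b ^ 2) *
        (i.blk.mu ^ 10 / i.blk.mu ^ s) := by
    intro k hk
    have hc := (h.contDiffOn_coreTerm b i).contDiffAt ((isOpen_capSet b).mem_nhds hx)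
    rw [show (fun z => y i * h.coreTerm b i z) = y i • h.coreTerm b i from rfl,
      iteratedFDeriv_const_smul_apply (hc.of_le (by exact_mod_cast hk)), norm_smul, Real.norm_eq_abs,
      ← iteratedFDerivWithin_of_isOpen k (isOpen_capSet b) hx]
    have hm := norm_iteratedFDerivWithin_mul_le (h.contDiffOn_capF_rsq b i.blk)
      (((Sphere.contDiff_Y i (n := 2)).comp_contDiffOn contDiffOn_capMap).mono fun _ hx => hx.1)
      hu hx (n := k) (by exact_mod_cast hk)
    have hsum : ‖iteratedFDerivWithin ℝ k (h.coreTerm b i) (capSet b) x‖ ≤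
        4 * A * (2 * 4096 * R * D ^ 2) * coreB K b ^ 2 * i.blk.mu ^ 8 := by
      refine hm.trans ?_
      calc ∑ j ∈ Finset.range (k + 1), (k.choose j : ℝ) *
            ‖iteratedFDerivWithin ℝ j (fun y => h.capF i.blk b (rsq y)) (capSet b) x‖ *
            ‖iteratedFDerivWithin ℝ (k - j) (fun y => Y i (capMap y)) (capSet b) x‖
          ≤ ∑ j ∈ Finset.range (k + 1), (k.choose j : ℝ) *
            (A * i.blk.mu ^ 4 * h.capF i.blk b (rsq x)) *
            (2 * 4096 * R * D ^ 2 * i.blk.mu ^ 4 * Real.sqrt (rsq x) ^ (i.blk.la - 2)) := by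
            refine Finset.sum_le_sum fun j hj => ?_
            have hj' : j ≤ k := Nat.lt_succ_iff.1 (Finset.mem_range.1 hj)
            gcongr
            · exact h.norm_iteratedFDeriv_capF_le b i.blk hx hC0 (hC x hxS).1 (hC x hxS).2
                (hj'.trans hk)
            · exact hY (k - j) (by omega)
        _ = (2 : ℝ) ^ k * (A * (2 * 4096 * R * D ^ 2) * i.blk.mu ^ 8 *
            (h.capF i.blk b (rsq x) * Real.sqrt (rsq x) ^ (i.blk.la - 2))) := by
            rw [← Finset.sum_mul, ← Finset.sum_mul, ← Nat.cast_sum, Nat.sum_range_choose]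
            push_cast
            ring
        _ ≤ 2 ^ 2 * (A * (2 * 4096 * R * D ^ 2) * i.blk.mu ^ 8 * coreB K b ^ 2) := by
            gcongr
            · exact one_le_two
            · exact h.capF_le i.blk b (rsq_nonneg x) hx.2.le
        _ = _ := by ring
    refine (mul_le_mul (hy i) hsum (norm_nonneg _) hB).trans (le_of_eq ?_)
    ring
  refine ⟨?_, ?_, ?_⟩
  · simpa using hall 0 (by norm_num)
  · rw [← norm_iteratedFDeriv_one]; exact hall 1 (by norm_num)
  · rw [← norm_iteratedFDeriv_one, norm_iteratedFDeriv_fderiv]; exact hall 2 le_rfl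

/-- The regular harmonic extension with coefficients `y` at the time `b`. -/
def coreSum (y : St → ℝ) (x : Pt 7) : ℝ := ∑' i, y i * h.coreTerm b i x

theorem contDiffOn_coreSum {s : ℕ} (hs : 19 ≤ s) {y : St → ℝ} {B : ℝ}
    (hy : ∀ i, |y i| ≤ B * (i.blk.mu ^ 2 / i.blk.mu ^ s)) :
    ContDiffOn ℝ 2 (h.coreSum b y) (capSet b) :=
  (h.locallyC2Summable_core b hs hy).contDiffOn (isOpen_capSet b) fun i =>
    contDiffOn_const.mul (h.contDiffOn_coreTerm b i)

/-- Off the core the extension is the mode series of the regular solutions. -/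
theorem coreSum_eq (y : St → ℝ) {x : Pt 7} (hx : x ∈ chartOff) :
    h.coreSum b y x = ∑' i, modeTerm (fun i t => y i * h.coef i.blk b t) i x :=
  tsum_congr fun i => by rw [h.coreTerm_eq b i hx, modeTerm, mul_assoc]

/-- The coefficients of the extension and their two derivatives up to the time `b`. -/
theorem abs_coef_bounds (i : St) {b t : ℝ} (ht : t ≤ b) :
    |h.coef i.blk b t| ≤ 1 ∧ |deriv (h.coef i.blk b) t| ≤ (2 * M + 1) * i.blk.mu ∧
      |deriv (deriv (h.coef i.blk b)) t| ≤ (3 * M + M * (2 * M + 1)) * i.blk.mu ^ 2 := by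
  have hM := h.one_le_M
  have hmu : 0 ≤ i.blk.mu := zero_le_one.trans (Blk.one_le_mu _)
  refine ⟨by rw [abs_of_pos (h.coef_pos _ _ _)]; exact h.coef_le_one _ ht,
    (h.abs_deriv_coef_le _ b t).trans (mul_le_of_le_one_right (by positivity) (h.coef_le_one _ ht)),
    (h.abs_deriv_deriv_coef_le _ b t).trans
      (mul_le_of_le_one_right (by positivity) (h.coef_le_one _ ht))⟩

end CapData

end

end Vale.Agent.P225.Cap
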