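import Vale.Agent.P225.Assembly.ModeBounds

/-!
P225, module 15c (helper27): two lemmas for the extension over the core.

`CoreC2`: `F ∘ q` is `C²` across `q = 0` if `F` is `C¹` and `ρ F'' → 0`, where `|Dq|² = O(q)`.
`norm_iteratedFDeriv_Y_core`: the basis functions and two derivatives at `(s ω, θ)`.
-/

open Set Filter Topology

set_option maxSynthPendingDepth 3

namespace Vale.Agent.P225.Cap

noncomputable section

/-- A function of `ρ = r²` which is `C²` as a function of the point. -/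
structure CoreC2 (F f1 f2 : ℝ → ℝ) : Prop where
  d1 : ∀ ρ, HasDerivAt F (f1 ρ) ρ
  cont1 : Continuous f1
  d2 : ∀ ρ, 0 < ρ → HasDerivAt f1 (f2 ρ) ρ
  cont2 : ContinuousOn f2 (Ioi 0)
  small : Tendsto (fun ρ => ρ * f2 ρ) (𝓝[>] 0) (𝓝 0)

namespace CoreC2

variable {n : ℕ} {F f1 f2 : ℝ → ℝ} {q : Pt n → ℝ} {U : Set (Pt n)}

/-- The second derivative of `F ∘ q`. -/
def second (f1 f2 : ℝ → ℝ) (q : Pt n → ℝ) (x : Pt n) : Pt n →L[ℝ] Pt n →L[ℝ] ℝ :=
  f2 (q x) • (fderiv ℝ q x).smulRight (fderiv ℝ q x) + f1 (q x) • fderiv ℝ (fderiv ℝ q) x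

theorem norm_second_le (f1 f2 : ℝ → ℝ) {q : Pt n → ℝ} {x : Pt n} {C : ℝ}
    (hq : ‖fderiv ℝ q x‖ ^ 2 ≤ C * q x) :
    ‖second f1 f2 q x‖ ≤ C * (|f2 (q x)| * q x) + |f1 (q x)| * ‖fderiv ℝ (fderiv ℝ q) x‖ := by
  refine (ContinuousLinearMap.opNorm_add_le _ _).trans (add_le_add ?_ ?_)
  · rw [norm_smul, ContinuousLinearMap.norm_smulRight_apply, Real.norm_eq_abs, ← sq]
    calc |f2 (q x)| * ‖fderiv ℝ q x‖ ^ 2 ≤ |f2 (q x)| * (C * q x) :=
          mul_le_mul_of_nonneg_left hq (abs_nonneg _)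
      _ = _ := by ring
  · rw [norm_smul, Real.norm_eq_abs]

variable (h : CoreC2 F f1 f2) (hU : IsOpen U) (hq : ContDiffOn ℝ 2 q U)
  (h0 : ∀ x ∈ U, 0 ≤ q x)
  (hDq : ∀ x₀ ∈ U, ∃ C, ∀ᶠ x in 𝓝 x₀, ‖fderiv ℝ q x‖ ^ 2 ≤ C * q x)

include h hU hq

theorem hasFDerivAt_comp {x : Pt n} (hx : x ∈ U) :
    HasFDerivAt (fun y => F (q y)) (f1 (q x) • fderiv ℝ q x) x :=
  (h.d1 _).comp_hasFDerivAt x
    (((hq.differentiableOn (by norm_num)).differentiableAt (hU.mem_nhds hx)).hasFDerivAt)

include h0 hDq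

theorem hasFDerivAt_fderiv_comp {x : Pt n} (hx : x ∈ U) :
    HasFDerivAt (fderiv ℝ fun y => F (q y)) (second f1 f2 q x) x := by
  have he : (fderiv ℝ fun y => F (q y)) =ᶠ[𝓝 x] fun y => f1 (q y) • fderiv ℝ q y := by
    filter_upwards [hU.mem_nhds hx] with y hy
    exact (h.hasFDerivAt_comp hU hq hy).fderiv
  refine HasFDerivAt.congr_of_eventuallyEq ?_ he
  have hq' : ContDiffOn ℝ 1 (fderiv ℝ q) U := hq.fderiv_of_isOpen hU (by norm_num)
  have hd := ((hq'.differentiableOn (by norm_num)).differentiableAt (hU.mem_nhds hx)).hasFDerivAt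
  have hqd := ((hq.differentiableOn (by norm_num)).differentiableAt (hU.mem_nhds hx)).hasFDerivAt
  rcases (h0 x hx).eq_or_lt with hzero | hpos
  · obtain ⟨C, hC⟩ := hDq x hx
    have hD0 : fderiv ℝ q x = 0 := by
      have := hC.self_of_nhds
      rw [← hzero, mul_zero] at this
      simpa using le_antisymm this (sq_nonneg _)
    have hlim : Tendsto (fun y => f1 (q y) - f1 (q x)) (𝓝 x) (𝓝 0) := by
      simpa using ((h.cont1.tendsto _).comp hqd.continuousAt).sub_const (f1 (q x))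
    have ho : (fun y => (f1 (q y) - f1 (q x)) • fderiv ℝ q y) =o[𝓝 x] fun y => y - x := by
      have h1 : (fun y => f1 (q y) - f1 (q x)) =o[𝓝 x] fun _ => (1 : ℝ) :=
        (Asymptotics.isLittleO_one_iff ℝ).2 hlim
      have h2 : (fun y => fderiv ℝ q y) =O[𝓝 x] fun y => y - x := by
        simpa [hD0] using hd.isBigO_sub
      refine (Asymptotics.isLittleO_norm_right.1 ?_)
      simpa using h1.smul_isBigO h2.norm_right
    have h3 : HasFDerivAt (fun y => (f1 (q y) - f1 (q x)) • fderiv ℝ q y)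
        (0 : Pt n →L[ℝ] Pt n →L[ℝ] ℝ) x := by
      refine HasFDerivAt.of_isLittleO (ho.congr_left fun y => ?_)
      simp
    refine ((h3.add (hd.const_smul (f1 (q x)))).congr_of_eventuallyEq
      (Eventually.of_forall fun y => ?_)).congr_fderiv ?_
    · simp only [Pi.add_apply, Pi.smul_apply, ← add_smul, sub_add_cancel]
    · simp [second, hD0]
  · refine (((h.d2 _ hpos).comp_hasFDerivAt x hqd).smul hd).congr_fderiv ?_
    ext v u
    simp [second]
    ring

theorem continuousAt_second {x : Pt n} (hx : x ∈ U) : ContinuousAt (second f1 f2 q) x := by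
  have hq' : ContinuousAt (fderiv ℝ q) x :=
    ((hq.fderiv_of_isOpen hU (m := 1) (by norm_num)).continuousOn).continuousAt (hU.mem_nhds hx)
  have hq'' : ContinuousAt (fderiv ℝ (fderiv ℝ q)) x :=
    ((hq.fderiv_of_isOpen hU (m := 1) (by norm_num)).continuousOn_fderiv_of_isOpen hU le_rfl
      ).continuousAt (hU.mem_nhds hx)
  have hq0 : ContinuousAt q x := hq.continuousOn.continuousAt (hU.mem_nhds hx)
  refine ContinuousAt.add ?_ ((h.cont1.continuousAt.comp hq0).smul hq'')
  rcases (h0 x hx).eq_or_lt with hzero | hpos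
  · obtain ⟨C, hC⟩ := hDq x hx
    have hG : ContinuousWithinAt (fun ρ => ρ * f2 ρ) (Ici 0) 0 :=
      continuousWithinAt_Ioi_iff_Ici.1 (by simpa [ContinuousWithinAt] using h.small)
    have hqw : Tendsto q (𝓝 x) (𝓝[Ici 0] 0) :=
      tendsto_nhdsWithin_iff.2 ⟨by simpa [hzero] using hq0.tendsto,
        Filter.mem_of_superset (hU.mem_nhds hx) fun y hy => h0 y hy⟩
    have hlim : Tendsto (fun y => C * |q y * f2 (q y)|) (𝓝 x) (𝓝 0) := by
      simpa using ((hG.tendsto.comp hqw).abs.const_mul C)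
    have hx0 : f2 (q x) • (fderiv ℝ q x).smulRight (fderiv ℝ q x) = 0 := by
      have := hC.self_of_nhds
      rw [← hzero, mul_zero] at this
      have hD0 : fderiv ℝ q x = 0 := by simpa using le_antisymm this (sq_nonneg _)
      simp [hD0]
    rw [ContinuousAt, hx0]
    refine squeeze_zero_norm' ?_ hlim
    filter_upwards [hC, hU.mem_nhds hx] with y hy hyU
    rw [norm_smul, ContinuousLinearMap.norm_smulRight_apply, Real.norm_eq_abs, ← sq]
    calc |f2 (q y)| * ‖fderiv ℝ q y‖ ^ 2 ≤ |f2 (q y)| * (C * q y) :=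
          mul_le_mul_of_nonneg_left hy (abs_nonneg _)
      _ = C * |q y * f2 (q y)| := by rw [abs_mul, abs_of_nonneg (h0 y hyU)]; ring
  · exact ((h.cont2.continuousAt (Ioi_mem_nhds hpos)).comp hq0).smul
      ((ContinuousLinearMap.smulRightL ℝ (Pt n) (Pt n →L[ℝ] ℝ)).continuous₂.continuousAt.comp₂
        hq' hq')

/-- `F ∘ q` is `C²`. -/
theorem contDiffOn_comp : ContDiffOn ℝ 2 (fun y => F (q y)) U := by
  rw [show (2 : WithTop ℕ∞) = 1 + 1 by rfl, contDiffOn_succ_iff_fderiv_of_isOpen hU]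
  refine ⟨fun x hx => (h.hasFDerivAt_comp hU hq hx).differentiableAt.differentiableWithinAt,
    by simp, ?_⟩
  rw [show (1 : WithTop ℕ∞) = 0 + 1 by rfl, contDiffOn_succ_iff_fderiv_of_isOpen hU]
  refine ⟨fun x hx => (h.hasFDerivAt_fderiv_comp hU hq h0 hDq hx).differentiableAt.differentiableWithinAt,
    by simp, ?_⟩
  rw [contDiffOn_zero]
  intro x hx
  refine ((h.continuousAt_second hU hq h0 hDq hx).congr ?_).continuousWithinAt
  filter_upwards [hU.mem_nhds hx] with y hy
  exact (h.hasFDerivAt_fderiv_comp hU hq h0 hDq hy).fderiv.symm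

end CoreC2

/-! ### The basis functions near the core -/

open Sphere (Y R4 R44 scl)

theorem sum_sq_smul (s : ℝ) (ω : R4) : ∑ j, (s • ω) j ^ 2 = s ^ 2 * ∑ j, ω j ^ 2 := by
  simp [Finset.mul_sum, mul_pow]

/-- Value and two derivatives at `(s ω, θ)`, `s > 0`. -/
theorem norm_iteratedFDeriv_Y_scl (i : St) {ω θ : R4} (hω : ∑ j, ω j ^ 2 = 1)
    (hθ : ∑ j, θ j ^ 2 = 1) {s : ℝ} (hs : 0 < s) {k : ℕ} (hk : k ≤ 2) :
    ‖iteratedFDeriv ℝ k (Y i) (s • ω, θ)‖ ≤
      2048 * i.blk.mu ^ 4 * (s ^ i.blk.la * max s⁻¹ 1 ^ 2) := by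
  obtain ⟨z, hz⟩ := Sphere.exists_crd2 (z := (ω, θ)) hω hθ
  have hY : Y i = (s ^ i.blk.la) • (Y i ∘ scl s⁻¹ 1) := by
    funext y
    simp only [Pi.smul_apply, Function.comp_apply, Sphere.scl_apply, smul_eq_mul, one_smul]
    have hscale := Sphere.Y_scale i s 1 (s⁻¹ • y.1, y.2)
    simp only [smul_smul, mul_inv_cancel₀ hs.ne', one_smul, one_pow, mul_one] at hscale
    exact hscale
  have hL : ‖scl s⁻¹ 1‖ ≤ max s⁻¹ 1 := by
    refine ContinuousLinearMap.opNorm_le_bound _ (by positivity) fun y => ?_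
    rw [Sphere.scl_apply, Prod.norm_def, one_smul, norm_smul,
      Real.norm_of_nonneg (inv_nonneg.2 hs.le)]
    refine max_le (mul_le_mul (le_max_left _ _) (le_max_left _ _) (norm_nonneg _) (by positivity)) ?_
    exact le_trans (le_max_right ‖y.1‖ _) (le_mul_of_one_le_left (le_max_of_le_left (norm_nonneg _)) (le_max_right _ _))
  have hc : ContDiff ℝ k (Y i) := Sphere.contDiff_Y i
  conv_lhs => rw [hY]
  rw [iteratedFDeriv_const_smul_apply (hc.comp (scl s⁻¹ 1).contDiff).contDiffAt,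
    (scl s⁻¹ 1).iteratedFDeriv_comp_right hc _ le_rfl, norm_smul,
    Real.norm_of_nonneg (pow_nonneg hs.le _)]
  have he : scl s⁻¹ 1 (s • ω, θ) = Sphere.crd2 z := by
    rw [Sphere.scl_apply, hz, smul_smul, inv_mul_cancel₀ hs.ne', one_smul, one_smul]
  refine le_trans (mul_le_mul_of_nonneg_left
    (ContinuousMultilinearMap.norm_compContinuousLinearMap_le _ _) (pow_nonneg hs.le _)) ?_
  rw [he, Finset.prod_const, Finset.card_univ, Fintype.card_fin]
  calc s ^ i.blk.la * (‖iteratedFDeriv ℝ k (Y i) (Sphere.crd2 z)‖ * ‖scl s⁻¹ 1‖ ^ k)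
      ≤ s ^ i.blk.la * (2048 * i.blk.mu ^ 4 * max s⁻¹ 1 ^ 2) := by
        gcongr
        · exact norm_iteratedFDeriv_Y_unit i z hk
        · exact (pow_le_pow_left₀ (norm_nonneg _) hL k).trans
            (pow_le_pow_right₀ (le_max_right _ _) hk)
    _ = _ := by ring

/-- Basis functions of degree one in the first variable are additive in it. -/
theorem Y_add_fst {i : St} (h : i.blk.la = 1) (u v z : R4) :
    Y i (u + v, z) = Y i (u, z) + Y i (v, z) := by
  have key : ∀ u, Y i (u, z) = fderiv ℝ (fun p => Y i (p, z)) 0 u := fun u => by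
    have hf : DifferentiableAt ℝ (fun p => Y i (p, z)) 0 :=
      (((Sphere.contDiff_Y i (n := 1)).comp
        (contDiff_id.prodMk contDiff_const)).differentiable one_ne_zero) 0
    have hc : HasDerivAt (fun s : ℝ => Y i (s • u, z)) (fderiv ℝ (fun p => Y i (p, z)) 0 u) 0 := by
      have := hf.hasFDerivAt.comp_hasDerivAt_of_eq (0 : ℝ)
        ((hasDerivAt_id' (0 : ℝ)).smul_const u) (by simp)
      simpa [Function.comp_def] using this
    have hd : HasDerivAt (fun s : ℝ => Y i (s • u, z)) (Y i (u, z)) 0 := by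
      have e : (fun s : ℝ => Y i (s • u, z)) = fun s => s * Y i (u, z) := funext fun s => by
        have := Sphere.Y_scale i s 1 (u, z)
        simp only [one_smul, h, pow_one, one_pow, mul_one] at this
        exact this
      rw [e]
      simpa using (hasDerivAt_id' (0 : ℝ)).mul_const (Y i (u, z))
    exact hd.unique hc
  rw [key, key, key, map_add]

/-- Value and two derivatives at `(s ω, θ)`, `s ≥ 0`: they vanish like `s^(la - 2)`. -/
theorem norm_iteratedFDeriv_Y_core (i : St) {ω θ : R4} (hω : ∑ j, ω j ^ 2 = 1)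
    (hθ : ∑ j, θ j ^ 2 = 1) {s : ℝ} (hs : 0 ≤ s) {k : ℕ} (hk : k ≤ 2) :
    ‖iteratedFDeriv ℝ k (Y i) (s • ω, θ)‖ ≤
      4096 * i.blk.mu ^ 4 * ((1 + s) ^ 2 * s ^ (i.blk.la - 2)) := by
  have hmu : (0 : ℝ) ≤ i.blk.mu ^ 4 := pow_nonneg (zero_le_one.trans (Blk.one_le_mu _)) _
  have hc : ContDiff ℝ k (Y i) := Sphere.contDiff_Y i
  rcases le_or_gt 2 i.blk.la with hla | hla
  · have hpos : ∀ s : ℝ, 0 < s → ‖iteratedFDeriv ℝ k (Y i) (s • ω, θ)‖ ≤
        4096 * i.blk.mu ^ 4 * ((1 + s) ^ 2 * s ^ (i.blk.la - 2)) := by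
      intro s hs
      refine (norm_iteratedFDeriv_Y_scl i hω hθ hs hk).trans (mul_le_mul (by linarith) ?_
        (by positivity) (by positivity))
      rw [show i.blk.la = i.blk.la - 2 + 2 by omega, pow_add, Nat.add_sub_cancel, mul_assoc,
        mul_comm _ (s ^ (i.blk.la - 2))]
      refine mul_le_mul_of_nonneg_left ?_ (pow_nonneg hs.le _)
      rw [← mul_pow]
      refine pow_le_pow_left₀ (by positivity) ?_ 2
      rw [mul_max_of_nonneg _ _ hs.le, mul_inv_cancel₀ hs.ne', mul_one]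
      exact max_le (by linarith) (by linarith)
    rcases hs.eq_or_lt with rfl | hs'
    · have hcont : Continuous fun s : ℝ => ‖iteratedFDeriv ℝ k (Y i) (s • ω, θ)‖ :=
        ((hc.continuous_iteratedFDeriv le_rfl).comp (by fun_prop)).norm
      have hcont' : Continuous fun s : ℝ =>
          4096 * i.blk.mu ^ 4 * ((1 + s) ^ 2 * s ^ (i.blk.la - 2)) := by fun_prop
      exact le_of_tendsto_of_tendsto ((hcont.tendsto 0).mono_left nhdsWithin_le_nhds)
        ((hcont'.tendsto 0).mono_left nhdsWithin_le_nhds)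
        (eventually_nhdsWithin_of_forall (s := Ioi (0 : ℝ)) fun s hs => hpos s hs)
    · exact hpos s hs'
  · rw [show i.blk.la - 2 = 0 by omega, pow_zero, mul_one]
    set w : R44 := (ω, 0)
    let P : R44 →L[ℝ] R44 := scl 0 1
    have hP : ‖P‖ ≤ 1 := by
      refine ContinuousLinearMap.opNorm_le_bound _ zero_le_one fun y => ?_
      simp [P, Sphere.scl_apply, Prod.norm_def]
    have hshift : ContDiff ℝ k fun y => Y i (y + w) := hc.comp (contDiff_id.add contDiff_const)
    have hw : (s • ω, θ) + w = ((1 + s) • ω, θ) := by simp [w, add_smul, add_comm]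
    have h1 : ‖iteratedFDeriv ℝ k (fun y => Y i (y + w)) (s • ω, θ)‖ ≤
        2048 * i.blk.mu ^ 4 * (1 + s) ^ 2 := by
      rw [iteratedFDeriv_comp_add_right, hw]
      refine (norm_iteratedFDeriv_Y_scl i hω hθ (by linarith) hk).trans
        (mul_le_mul_of_nonneg_left ?_ (by positivity))
      rw [max_eq_right (inv_le_one_of_one_le₀ (by linarith)), one_pow, mul_one]
      exact pow_le_pow_right₀ (by linarith) (by omega)
    rcases (by omega : i.blk.la = 0 ∨ i.blk.la = 1) with h0 | h0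
    · have hY : Y i = fun y => Y i (y + w) := by
        funext y
        have e1 := Sphere.Y_scale i 0 1 y
        have e2 := Sphere.Y_scale i 0 1 (y + w)
        simp only [h0, pow_zero, one_pow, mul_one, one_mul, zero_smul, one_smul] at e1 e2
        rw [← e1, ← e2]
        simp [w]
      rw [hY]
      refine h1.trans ?_
      nlinarith [mul_nonneg hmu (sq_nonneg (1 + s))]
    · have hY : Y i = (fun y => Y i (y + w)) - (fun y => Y i (y + w)) ∘ P := by
        funext y
        have := Y_add_fst h0 y.1 ω y.2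
        simp [P, w, Sphere.scl_apply, Pi.sub_apply]
        rw [show y + (ω, 0) = (y.1 + ω, y.2) by simp [Prod.ext_iff], this]
        ring
      rw [hY, iteratedFDeriv_sub_apply hshift.contDiffAt (hshift.comp P.contDiff).contDiffAt]
      refine (norm_sub_le _ _).trans ?_
      rw [P.iteratedFDeriv_comp_right hshift _ le_rfl]
      have h2 : ‖iteratedFDeriv ℝ k (fun y => Y i (y + w)) (P (s • ω, θ))‖ ≤
          2048 * i.blk.mu ^ 4 := by
        have : P (s • ω, θ) + w = (ω, θ) := by simp [P, w, Sphere.scl_apply]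
        rw [iteratedFDeriv_comp_add_right, this]
        simpa using norm_iteratedFDeriv_Y_scl i hω hθ one_pos hk
      have h3 : ∏ _j : Fin k, ‖P‖ ≤ 1 := Finset.prod_le_one (fun _ _ => norm_nonneg _) fun _ _ => hP
      refine (add_le_add h1 ((ContinuousMultilinearMap.norm_compContinuousLinearMap_le _ _).trans
        ((mul_le_mul h2 h3 (Finset.prod_nonneg fun _ _ => norm_nonneg _) (by positivity)).trans
          (le_of_eq (mul_one _))))).trans ?_
      nlinarith [mul_nonneg hmu (mul_nonneg hs (by linarith : (0 : ℝ) ≤ 2 + s))]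

end

end Vale.Agent.P225.Cap
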