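import Vale.Agent.P225.Cap.Radial
import Vale.Agent.P225.Cap.Extend

/-!
P225, module 15c (helper27): the regular solution divided by `r^la` as a function of `ρ = r²`.
-/

open MeasureTheory Set Filter Topology

namespace Vale.Agent.P225.Cap

open Ode

noncomputable section

theorem rho_log {ρ : ℝ} (hρ : 0 < ρ) : rho (Real.log ρ / 2) = ρ := by
  rw [rho, mul_div_cancel₀ _ two_ne_zero, Real.exp_log hρ]

theorem log_rho_div_two (t : ℝ) : Real.log (rho t) / 2 = t := by
  rw [rho, Real.log_exp]; ring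

theorem tendsto_half_log : Tendsto (fun ρ => Real.log ρ / 2) (𝓝[>] 0) atBot :=
  Real.tendsto_log_nhdsGT_zero.atBot_div_const two_pos

namespace CapData

variable {w : ℝ → Fin 3 → ℝ} {c : ℝ → ℝ} {K M : ℝ} (h : CapData w c K M) (V : Blk) (b : ℝ)

/-- The limit of `quot` at the core. -/
def quotLim : ℝ := (h.tendsto_quot V).choose

/-- The logarithmic derivative of `r^(-la) u` in `ρ`. -/
def dlogF (ρ : ℝ) : ℝ := if 0 < ρ then h.quot V (Real.log ρ / 2) / 2 else h.quotLim V / 2

/-- Its derivative on `ρ > 0`. -/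
def dlogF' (ρ : ℝ) : ℝ := h.quot' V (Real.log ρ / 2) / (4 * ρ)

theorem hasDerivAt_dlogF {ρ : ℝ} (hρ : 0 < ρ) :
    HasDerivAt (h.dlogF V) (h.dlogF' V ρ) ρ := by
  have h1 : HasDerivAt (fun r => h.quot V (Real.log r / 2) / 2)
      (h.quot' V (Real.log ρ / 2) * (ρ⁻¹ / 2) / 2) ρ :=
    ((h.hasDerivAt_quot V _).comp ρ ((Real.hasDerivAt_log hρ.ne').div_const 2)).div_const 2
  refine (h1.congr_of_eventuallyEq ?_).congr_deriv ?_
  · filter_upwards [eventually_gt_nhds hρ] with r hr
    simp [dlogF, hr]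
  · simp only [dlogF']
    field_simp
    ring

theorem continuous_dlogF : Continuous (h.dlogF V) := by
  refine continuous_iff_continuousAt.2 fun ρ => ?_
  rcases lt_trichotomy ρ 0 with hρ | rfl | hρ
  · refine (continuousAt_const (y := h.quotLim V / 2)).congr ?_
    filter_upwards [eventually_lt_nhds hρ] with r hr
    simp [dlogF, hr.not_gt]
  · have h0 : h.dlogF V 0 = h.quotLim V / 2 := by simp [dlogF]
    rw [continuousAt_iff_continuous_left'_right']
    constructor
    · refine (continuousWithinAt_const (b := h.quotLim V / 2)).congr (fun r hr => ?_) h0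
      simp [dlogF, (not_lt.2 (le_of_lt (mem_Iio.1 hr)))]
    · rw [ContinuousWithinAt, h0]
      refine (((h.tendsto_quot V).choose_spec.1.comp tendsto_half_log).div_const 2).congr' ?_
      filter_upwards [self_mem_nhdsWithin] with r hr
      simp [dlogF, mem_Ioi.1 hr]
  · exact (h.hasDerivAt_dlogF V hρ).continuousAt

/-- `r^(-la)` times the regular solution, as a function of `ρ = r²`. -/
def capF (ρ : ℝ) : ℝ := Real.exp (-((V.la : ℝ) * b) + ∫ x in rho b..ρ, h.dlogF V x)

/-- First derivative. -/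
def capF1 (ρ : ℝ) : ℝ := h.dlogF V ρ * h.capF V b ρ

/-- Second derivative on `ρ > 0`. -/
def capF2 (ρ : ℝ) : ℝ := (h.dlogF' V ρ + h.dlogF V ρ ^ 2) * h.capF V b ρ

theorem capF_pos (ρ : ℝ) : 0 < h.capF V b ρ := Real.exp_pos _

theorem hasDerivAt_capF (ρ : ℝ) : HasDerivAt (h.capF V b) (h.capF1 V b ρ) ρ :=
  ((((h.continuous_dlogF V).integral_hasStrictDerivAt (rho b) ρ).hasDerivAt).const_add _).exp
    |>.congr_deriv (mul_comm _ _)

theorem continuous_capF : Continuous (h.capF V b) :=
  continuous_iff_continuousAt.2 fun ρ => (h.hasDerivAt_capF V b ρ).continuousAt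

/-- `capF` is the regular solution divided by `r^la`. -/
theorem capF_rho (t : ℝ) :
    h.capF V b (rho t) = h.coef V b t * Real.exp (-((V.la : ℝ) * t)) := by
  set f := fun s => -((V.la : ℝ) * b) + (∫ x in rho b..rho s, h.dlogF V x)
    - (prim (h.slope V) b s - V.la * s) with hf
  have hd : ∀ s, HasDerivAt f 0 s := fun s => by
    refine ((((((h.continuous_dlogF V).integral_hasStrictDerivAt (rho b) (rho s)).hasDerivAt).comp s
      (hasDerivAt_rho s)).const_add _).sub ((hasDerivAt_prim (h.continuous_slope V) b s).sub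
      ((hasDerivAt_id s).const_mul (V.la : ℝ)))).congr_deriv ?_
    have := (rho_pos s).ne'
    simp only [dlogF, if_pos (rho_pos s), log_rho_div_two, quot]
    field_simp
    ring
  have he : f t = f b := is_const_of_deriv_eq_zero (fun s => (hd s).differentiableAt)
    (fun s => (hd s).deriv) t b
  have hb : f b = 0 := by simp [hf]
  rw [capF, coef, ← Real.exp_add]
  congr 1
  rw [hb] at he
  simp only [hf] at he
  linarith

theorem continuousOn_dlogF' : ContinuousOn (h.dlogF' V) (Ioi 0) := by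
  have hq : Continuous (h.quot V) :=
    continuous_iff_continuousAt.2 fun t => (h.hasDerivAt_quot V t).continuousAt
  have hq' : Continuous (h.quot' V) :=
    ((((h.continuous_slope V).add continuous_const).add h.cont_c).add continuous_const).neg.mul hq
      |>.add ((((h.continuous_lam V).sub continuous_const).sub
        (h.cont_c.mul continuous_const)).div₀ continuous_rho fun t => (rho_pos t).ne')
  exact (hq'.comp_continuousOn ((Real.continuousOn_log.mono fun r hr => (mem_Ioi.1 hr).ne').div_const 2)).div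
    (continuousOn_const.mul continuousOn_id)
    fun r hr => mul_ne_zero (by norm_num) (mem_Ioi.1 hr).ne'

theorem coreC2 : CoreC2 (h.capF V b) (h.capF1 V b) (h.capF2 V b) where
  d1 := h.hasDerivAt_capF V b
  cont1 := (h.continuous_dlogF V).mul (h.continuous_capF V b)
  d2 ρ hρ := by
    refine ((h.hasDerivAt_dlogF V hρ).mul (h.hasDerivAt_capF V b ρ)).congr_deriv ?_
    simp only [capF1, capF2]
    ring
  cont2 := ((h.continuousOn_dlogF' V).add ((h.continuous_dlogF V).pow 2).continuousOn).mul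
    (h.continuous_capF V b).continuousOn
  small := by
    have h1 : Tendsto (fun ρ => ρ * h.dlogF V ρ ^ 2) (𝓝[>] 0) (𝓝 0) :=
      ((continuous_id.mul ((h.continuous_dlogF V).pow 2)).tendsto' 0 0 (by simp)).mono_left
        nhdsWithin_le_nhds
    have h2 : Tendsto (fun ρ => h.quot' V (Real.log ρ / 2) / 4 + ρ * h.dlogF V ρ ^ 2)
        (𝓝[>] 0) (𝓝 (0 / 4 + 0)) :=
      (((h.tendsto_quot V).choose_spec.2.comp tendsto_half_log).div_const 4).add h1
    have h3 := h2.mul (((h.continuous_capF V b).tendsto 0).mono_left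
      (nhdsWithin_le_nhds (s := Ioi (0 : ℝ))))
    rw [zero_div, zero_add, zero_mul] at h3
    refine h3.congr' ?_
    filter_upwards [self_mem_nhdsWithin] with ρ hρ
    have := (mem_Ioi.1 hρ).ne'
    simp only [capF2, dlogF']
    field_simp

theorem abs_dlogF_le {ρ : ℝ} : |h.dlogF V ρ| ≤ 2 * K * V.mu ^ 2 := by
  have key : ∀ t, |h.quot V t / 2| ≤ 2 * K * V.mu ^ 2 := fun t => by
    rw [abs_div, abs_two]; linarith [h.abs_quot_le V t]
  unfold dlogF
  split_ifs
  · exact key _
  · exact le_of_tendsto ((h.tendsto_quot V).choose_spec.1.div_const 2).abs (Eventually.of_forall key)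

/-- The constant in the bounds on the derivatives of `capF`. -/
def coreK (K M b : ℝ) : ℝ := 1 + 2 * K + (3 * M + 5) * K + 4 * K ^ 2 * rho b

theorem one_le_coreK (h : CapData w c K M) (b : ℝ) : 1 ≤ coreK K M b := by
  have := h.K_nonneg
  have := mul_nonneg (mul_nonneg (by norm_num : (0 : ℝ) ≤ 4) (sq_nonneg K)) (rho_pos b).le
  have : 0 ≤ (3 * M + 5) * K := mul_nonneg (by linarith [h.one_le_M]) h.K_nonneg
  unfold coreK
  linarith

theorem abs_capF1_le {ρ : ℝ} :
    |h.capF1 V b ρ| ≤ coreK K M b * V.mu ^ 4 * h.capF V b ρ := by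
  have := h.K_nonneg
  rw [capF1, abs_mul, abs_of_pos (h.capF_pos V b ρ)]
  refine mul_le_mul_of_nonneg_right (h.abs_dlogF_le V |>.trans ?_) (h.capF_pos V b ρ).le
  refine mul_le_mul ?_ (mu_le_mu_pow V (by norm_num)) (sq_nonneg _)
    (zero_le_one.trans (h.one_le_coreK b))
  have := mul_nonneg (mul_nonneg (by norm_num : (0 : ℝ) ≤ 4) (sq_nonneg K)) (rho_pos b).le
  have : 0 ≤ (3 * M + 5) * K := mul_nonneg (by linarith [h.one_le_M]) h.K_nonneg
  unfold coreK
  linarith

theorem abs_capF2_mul_le {ρ : ℝ} (h0 : 0 ≤ ρ) (hb : ρ ≤ rho b) :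
    |h.capF2 V b ρ| * ρ ≤ coreK K M b * V.mu ^ 4 * h.capF V b ρ := by
  have hK := h.K_nonneg
  have hF := (h.capF_pos V b ρ).le
  have hM : 0 ≤ (3 * M + 5) * K := mul_nonneg (by linarith [h.one_le_M]) hK
  rcases h0.eq_or_lt with rfl | hρ
  · rw [mul_zero]
    have := h.one_le_coreK b
    have : 0 ≤ V.mu ^ 4 := pow_nonneg (zero_le_one.trans (Blk.one_le_mu V)) _
    positivity
  · have e1 : |h.dlogF' V ρ| * ρ ≤ (3 * M + 5) * K * V.mu ^ 4 := by
      rw [dlogF', abs_div, abs_of_pos (by positivity : 0 < 4 * ρ)]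
      calc |h.quot' V (Real.log ρ / 2)| / (4 * ρ) * ρ
          = |h.quot' V (Real.log ρ / 2)| / 4 := by field_simp
        _ ≤ (3 * M + 5) * (4 * K) * V.mu ^ 3 / 4 := by gcongr; exact h.abs_quot'_le V _
        _ = (3 * M + 5) * K * V.mu ^ 3 := by ring
        _ ≤ _ := mul_le_mul_of_nonneg_left (mu_le_mu_pow V (by norm_num)) hM
    have e2 : h.dlogF V ρ ^ 2 * ρ ≤ 4 * K ^ 2 * rho b * V.mu ^ 4 := by
      rw [← sq_abs]
      calc |h.dlogF V ρ| ^ 2 * ρ ≤ (2 * K * V.mu ^ 2) ^ 2 * rho b := by
            gcongr; exact h.abs_dlogF_le V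
        _ = _ := by ring
    rw [capF2, abs_mul, abs_of_pos (h.capF_pos V b ρ), mul_right_comm]
    refine mul_le_mul_of_nonneg_right ?_ hF
    refine le_trans (mul_le_mul_of_nonneg_right (abs_add_le _ _) h0) ?_
    rw [add_mul, abs_of_nonneg (sq_nonneg (h.dlogF V ρ))]
    have : 0 ≤ V.mu ^ 4 := pow_nonneg (zero_le_one.trans (Blk.one_le_mu V)) _
    unfold coreK
    nlinarith

/-- The constant in the bound on `capF`. -/
def coreB (K b : ℝ) : ℝ := max 1 (Real.exp (K / 2 * rho b - b))

theorem capF_le {ρ : ℝ} (h0 : 0 ≤ ρ) (hb : ρ ≤ rho b) :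
    h.capF V b ρ * Real.sqrt ρ ^ (V.la - 2) ≤ coreB K b ^ 2 := by
  set B := Real.exp (K / 2 * rho b - b) with hB
  set Bm := coreB K b
  have hBm : B ≤ Bm := le_max_right _ _
  have h1m : 1 ≤ Bm := le_max_left _ _
  have key : ∀ t ≤ b, h.capF V b (rho t) * Real.exp t ^ (V.la - 2) ≤ Bm ^ 2 := by
    intro t ht
    have hdec : h.capF V b (rho t) ≤ B ^ V.la := by
      rw [capF_rho, hB, ← Real.exp_nat_mul]
      exact h.coef_mul_exp_le V ht
    have hone : h.capF V b (rho t) * Real.exp t ^ V.la ≤ 1 := by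
      rw [capF_rho, ← Real.exp_nat_mul, mul_assoc, ← Real.exp_add, neg_add_cancel, Real.exp_zero,
        mul_one]
      exact h.coef_le_one V ht
    have hF := (h.capF_pos V b (rho t)).le
    rcases le_or_gt V.la 2 with hla | hla
    · rw [Nat.sub_eq_zero_of_le hla, pow_zero, mul_one]
      exact hdec.trans ((pow_le_pow_left₀ (Real.exp_pos _).le hBm _).trans
        (pow_le_pow_right₀ h1m hla))
    · obtain ⟨m, hm⟩ : ∃ m, V.la = m + 2 := ⟨V.la - 2, by omega⟩
      rw [hm] at hdec hone
      rw [hm, Nat.add_sub_cancel]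
      rcases le_or_gt (Real.exp t * B) 1 with hs | hs
      · calc h.capF V b (rho t) * Real.exp t ^ m ≤ B ^ (m + 2) * Real.exp t ^ m := by gcongr
          _ = B ^ 2 * (Real.exp t * B) ^ m := by ring
          _ ≤ B ^ 2 * 1 := by gcongr; exact pow_le_one₀ (by positivity) hs
          _ ≤ Bm ^ 2 := by rw [mul_one]; gcongr
      · calc h.capF V b (rho t) * Real.exp t ^ m
            ≤ h.capF V b (rho t) * Real.exp t ^ m * (Real.exp t * B) ^ 2 :=
              le_mul_of_one_le_right (by positivity) (one_le_pow₀ hs.le)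
          _ = h.capF V b (rho t) * Real.exp t ^ (m + 2) * B ^ 2 := by ring
          _ ≤ 1 * Bm ^ 2 := by gcongr
          _ = _ := one_mul _
  rcases h0.eq_or_lt with rfl | hρ
  · have hc : Continuous fun r => h.capF V b r * Real.sqrt r ^ (V.la - 2) :=
      (h.continuous_capF V b).mul (Real.continuous_sqrt.pow _)
    refine le_of_tendsto ((hc.tendsto 0).comp tendsto_rho)
      ((eventually_le_atBot b).mono fun t ht => ?_)
    simp only [Function.comp_apply]
    rw [rho, two_mul, Real.exp_add, Real.sqrt_mul_self (Real.exp_pos t).le]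
    have := key t ht
    rwa [rho, two_mul, Real.exp_add] at this
  · have ht : Real.log ρ / 2 ≤ b := by
      have := Real.log_le_log hρ hb
      rw [rho, Real.log_exp] at this
      linarith
    have := key _ ht
    rwa [rho_log hρ, show Real.exp (Real.log ρ / 2) = Real.sqrt ρ by
      rw [Real.exp_half, Real.exp_log hρ]] at this

end CapData

end

end Vale.Agent.P225.Cap
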