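import Vale.Agent.P225.Cap.Slope
import Vale.Agent.P225.Ode.Family

/-!
P225, module 15c (helper27): regular solutions of the mode equations on the cap.

`regSlope h V` is the slope of the mode `V` which is regular at the core, `regCoef h b V` the regular
solution with value one at `t = b`.  Near the core `regSlope - la = regQ · e^{2t}` with `regQ` bounded
by `O(mu²)` and convergent.
-/

open MeasureTheory Set Filter Topology

namespace Vale.Agent.P225.Cap

open Ode

noncomputable section

/-- Weights and drift on the cap: the first sphere shrinks to the core at `t = -∞`, where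
`(w, c) = (1, 0, 0, 2) + O(e^{2t})`. -/
structure CapData (w : ℝ → Fin 3 → ℝ) (c : ℝ → ℝ) (K M : ℝ) : Prop where
  cont_w : ∀ j, Continuous fun t => w t j
  cont_c : Continuous c
  nonneg : ∀ t j, 0 ≤ w t j
  one_le : ∀ t, 1 ≤ w t 0
  one_le_c : ∀ t, 1 ≤ c t
  le_M : ∀ t j, w t j ≤ M
  c_le : ∀ t, c t ≤ M
  near_w : ∀ t j, |w t j - ![1, 0, 0] j| ≤ K * rho t
  near_c : ∀ t, |c t - 2| ≤ K * rho t
  lim_w : ∀ j, ∃ f, Tendsto (fun t => (w t j - ![1, 0, 0] j) / rho t) atBot (𝓝 f)
  lim_c : ∃ f, Tendsto (fun t => (c t - 2) / rho t) atBot (𝓝 f)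

theorem cas_le_mu_sq (V : Blk) :
    Blk.cas V.la ≤ V.mu ^ 2 ∧ Blk.cas V.lb ≤ V.mu ^ 2 ∧ Blk.cas V.lc ≤ V.mu ^ 2 := by
  have ha : (0 : ℝ) ≤ V.la := Nat.cast_nonneg _
  have hb : (0 : ℝ) ≤ V.lb := Nat.cast_nonneg _
  have hc : (0 : ℝ) ≤ V.lc := Nat.cast_nonneg _
  unfold Blk.cas Blk.mu
  refine ⟨?_, ?_, ?_⟩ <;> nlinarith

theorem cas_nonneg (x : ℕ) : 0 ≤ Blk.cas x := by unfold Blk.cas; positivity

theorem la_le_mu (V : Blk) : (V.la : ℝ) ≤ V.mu := by
  have hb : (0 : ℝ) ≤ V.lb := Nat.cast_nonneg _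
  have hc : (0 : ℝ) ≤ V.lc := Nat.cast_nonneg _
  unfold Blk.mu
  linarith

theorem mu_le_mu_pow (V : Blk) {m n : ℕ} (h : m ≤ n) : V.mu ^ m ≤ V.mu ^ n :=
  pow_le_pow_right₀ (Blk.one_le_mu V) h

/-- Bound of the residual of the indicial root, divided by `K`. -/
def errC (V : Blk) : ℝ := Blk.cas V.la + Blk.cas V.lb + Blk.cas V.lc + V.la

theorem errC_nonneg (V : Blk) : 0 ≤ errC V := by
  unfold errC
  linarith [cas_nonneg V.la, cas_nonneg V.lb, cas_nonneg V.lc, (Nat.cast_nonneg V.la : (0 : ℝ) ≤ _)]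

theorem errC_le (V : Blk) : errC V ≤ 4 * V.mu ^ 2 := by
  obtain ⟨h1, h2, h3⟩ := cas_le_mu_sq V
  have := (la_le_mu V).trans (le_self_pow₀ (Blk.one_le_mu V) two_ne_zero)
  unfold errC
  linarith

variable {w : ℝ → Fin 3 → ℝ} {c : ℝ → ℝ} {K M : ℝ}

namespace CapData

theorem K_nonneg (h : CapData w c K M) : 0 ≤ K :=
  nonneg_of_mul_nonneg_left ((abs_nonneg _).trans (h.near_c 0)) (rho_pos 0)

theorem one_le_M (h : CapData w c K M) : 1 ≤ M := (h.one_le 0).trans (h.le_M 0 0)

theorem lam_nonneg (h : CapData w c K M) (V : Blk) (t : ℝ) : 0 ≤ Blk.lam (w t) V := by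
  have h0 := h.nonneg t
  have := mul_nonneg (h0 0) (cas_nonneg V.la)
  have := mul_nonneg (h0 1) (cas_nonneg V.lb)
  have := mul_nonneg (h0 2) (cas_nonneg V.lc)
  unfold Blk.lam
  linarith

theorem lam_le (h : CapData w c K M) (V : Blk) (t : ℝ) :
    Blk.lam (w t) V ≤ 3 * M * V.mu ^ 2 := by
  obtain ⟨h1, h2, h3⟩ := cas_le_mu_sq V
  have hM : 0 ≤ M := zero_le_one.trans h.one_le_M
  have := mul_le_mul (h.le_M t 0) h1 (cas_nonneg _) hM
  have := mul_le_mul (h.le_M t 1) h2 (cas_nonneg _) hM
  have := mul_le_mul (h.le_M t 2) h3 (cas_nonneg _) hM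
  unfold Blk.lam
  linarith

theorem continuous_lam (h : CapData w c K M) (V : Blk) :
    Continuous fun t => Blk.lam (w t) V :=
  (((h.cont_w 0).mul continuous_const).add ((h.cont_w 1).mul continuous_const)).add
    ((h.cont_w 2).mul continuous_const)

/-- The residual of the indicial root. -/
theorem lam_sub_eq (V : Blk) (t : ℝ) :
    Blk.lam (w t) V - (V.la : ℝ) ^ 2 - c t * V.la =
      (w t 0 - 1) * Blk.cas V.la + w t 1 * Blk.cas V.lb + w t 2 * Blk.cas V.lc
        + (V.la : ℝ) * (2 - c t) := by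
  unfold Blk.lam Blk.cas
  ring

theorem regData (h : CapData w c K M) (V : Blk) :
    RegData c (fun t => Blk.lam (w t) V) V.la ((2 * M + 1) * V.mu) (K * errC V) where
  cont_c := h.cont_c
  cont_l := h.continuous_lam V
  one_le := h.one_le_c
  nonneg := h.lam_nonneg V
  la_nonneg := Nat.cast_nonneg _
  la_le := by
    refine (la_le_mu V).trans ?_
    nlinarith [Blk.one_le_mu V, h.one_le_M]
  le_sq t := by
    refine (h.lam_le V t).trans ?_
    rw [mul_pow]
    gcongr
    nlinarith [h.one_le_M]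
  err t := by
    have h0 : |w t 0 - 1| ≤ K * rho t := by simpa using h.near_w t 0
    have h1 : |w t 1| ≤ K * rho t := by simpa using h.near_w t 1
    have h2 : |w t 2| ≤ K * rho t := by simpa using h.near_w t 2
    have h3 : |2 - c t| ≤ K * rho t := abs_sub_comm (c t) 2 ▸ h.near_c t
    have p0 := mul_le_mul_of_nonneg_right h0 (cas_nonneg V.la)
    have p1 := mul_le_mul_of_nonneg_right h1 (cas_nonneg V.lb)
    have p2 := mul_le_mul_of_nonneg_right h2 (cas_nonneg V.lc)
    have p3 := mul_le_mul_of_nonneg_left h3 (Nat.cast_nonneg V.la : (0 : ℝ) ≤ _)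
    rw [lam_sub_eq]
    refine ((abs_add_le _ _).trans (add_le_add_left (abs_add_three _ _ _) _)).trans ?_
    simp only [abs_mul, abs_of_nonneg (cas_nonneg _), Nat.abs_cast]
    simp only [errC]
    linarith

/-- The regular slope of the mode `V`. -/
def slope (h : CapData w c K M) (V : Blk) : ℝ → ℝ := (h.regData V).exists_regular.choose

variable (h : CapData w c K M) (V : Blk)

theorem hasDerivAt_slope (t : ℝ) :
    HasDerivAt (h.slope V) (Blk.lam (w t) V - c t * h.slope V t - h.slope V t ^ 2) t :=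
  (h.regData V).exists_regular.choose_spec.1 t

theorem slope_ode (t : ℝ) : ∃ z', HasDerivAt (h.slope V) z' t ∧
    z' + h.slope V t ^ 2 + c t * h.slope V t = Blk.lam (w t) V :=
  ⟨_, h.hasDerivAt_slope V t, by ring⟩

theorem continuous_slope : Continuous (h.slope V) :=
  continuous_iff_continuousAt.2 fun t => (h.hasDerivAt_slope V t).continuousAt

theorem slope_nonneg (t : ℝ) : 0 ≤ h.slope V t := (h.regData V).exists_regular.choose_spec.2.1 t

theorem slope_le (t : ℝ) : h.slope V t ≤ (2 * M + 1) * V.mu :=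
  (h.regData V).exists_regular.choose_spec.2.2.1 t

theorem abs_slope_sub_la (t : ℝ) : |h.slope V t - V.la| ≤ K * errC V * rho t :=
  (h.regData V).exists_regular.choose_spec.2.2.2 t

theorem slope_zero (hV : V.mu = 1) (t : ℝ) : h.slope V t = 0 := by
  have ha : (0 : ℝ) ≤ V.la := Nat.cast_nonneg _
  have hb : (0 : ℝ) ≤ V.lb := Nat.cast_nonneg _
  have hc : (0 : ℝ) ≤ V.lc := Nat.cast_nonneg _
  unfold Blk.mu at hV
  obtain ⟨e1, e2, e3⟩ : (V.la : ℝ) = 0 ∧ (V.lb : ℝ) = 0 ∧ (V.lc : ℝ) = 0 := by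
    refine ⟨?_, ?_, ?_⟩ <;> linarith
  have := h.abs_slope_sub_la V t
  simpa [errC, Blk.cas, e1, e2, e3] using this

theorem tendsto_slope : Tendsto (h.slope V) atBot (𝓝 V.la) := by
  rw [tendsto_iff_dist_tendsto_zero]
  exact squeeze_zero (fun t => dist_nonneg) (fun t => h.abs_slope_sub_la V t)
    (by simpa using tendsto_rho.const_mul (K * errC V))

/-- The slope is at least `la (1 - K e^{2t})`. -/
theorem le_slope (t : ℝ) : (V.la : ℝ) - K * V.la * rho t ≤ h.slope V t := by
  have hE : 0 ≤ K * errC V := mul_nonneg h.K_nonneg (errC_nonneg V)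
  have hLa : 0 ≤ K * (V.la : ℝ) := mul_nonneg h.K_nonneg (Nat.cast_nonneg _)
  have hev : ∀ᶠ a in atBot,
      (V.la : ℝ) - K * V.la * rho t - h.slope V t ≤ K * errC V * rho a := by
    filter_upwards [eventually_le_atBot t] with a hat
    have := nonneg_of_hasDerivAt (κ := fun s => h.slope V s + V.la + c s)
      (y := fun s => h.slope V s - V.la + K * V.la * rho s + K * errC V * rho a)
      (((h.continuous_slope V).add continuous_const).add h.cont_c)
      (fun s _ => (((h.hasDerivAt_slope V s).sub_const _).add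
        ((hasDerivAt_rho s).const_mul (K * V.la))).add_const _) (b := t) (fun s _ => ?_) ?_
      t (right_mem_Icc.2 hat)
    · linarith
    · have he : -(K * V.la * rho s) ≤ Blk.lam (w s) V - (V.la : ℝ) ^ 2 - c s * V.la := by
        rw [lam_sub_eq]
        have h3 : |2 - c s| ≤ K * rho s := abs_sub_comm (c s) 2 ▸ h.near_c s
        have p0 := mul_nonneg (sub_nonneg.2 (h.one_le s)) (cas_nonneg V.la)
        have p1 := mul_nonneg (h.nonneg s 1) (cas_nonneg V.lb)
        have p2 := mul_nonneg (h.nonneg s 2) (cas_nonneg V.lc)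
        have p3 := mul_le_mul_of_nonneg_left (abs_le.1 h3).1
          (Nat.cast_nonneg V.la : (0 : ℝ) ≤ _)
        linarith
      have hκ : 0 ≤ h.slope V s + V.la + c s := by
        linarith [h.slope_nonneg V s, h.one_le_c s, (Nat.cast_nonneg V.la : (0 : ℝ) ≤ _)]
      have q0 := mul_nonneg hLa (rho_pos s).le
      have q1 := mul_nonneg hκ (add_nonneg q0 (mul_nonneg hE (rho_pos a).le))
      linarith
    · have := (abs_le.1 (h.abs_slope_sub_la V a)).1
      have := mul_nonneg hLa (rho_pos a).le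
      linarith
  have := ge_of_tendsto (tendsto_rho.const_mul (K * errC V)) hev
  linarith

/-- For slowly varying data the regular slope relaxes to the quasi-static one. -/
theorem abs_slope_sub_alphaFn {a t η : ℝ} {c' : ℝ → ℝ} {w' : ℝ → Fin 3 → ℝ} (hat : a ≤ t)
    (hc : ∀ s, HasDerivAt c (c' s) s) (hc' : Continuous c')
    (hw : ∀ j s, HasDerivAt (fun r => w r j) (w' s j) s) (hw' : ∀ j, Continuous fun s => w' s j)
    (hη : 0 ≤ η) (hη' : η ≤ 1 / 10) (hc4 : ∀ s ∈ Icc a t, 4 ≤ c s)
    (hcs : ∀ s ∈ Icc a t, |c' s| ≤ η) (hws : ∀ s ∈ Icc a t, ∀ j, |w' s j| ≤ η * w s j) {k : ℝ}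
    (hk : 0 < k) (hgain : ∀ s ∈ Icc a t, k + 3 * η ≤ alphaFn (c s) (Blk.lam (w s) V) + c s) :
    |h.slope V t - alphaFn (c t) (Blk.lam (w t) V)| ≤
      3 * η + (2 * M + 1) * V.mu * Real.exp (-(k * (t - a))) := by
  have hl : ∀ s, HasDerivAt (fun r => Blk.lam (w r) V) (Blk.lam (w' s) V) s := fun s =>
    (((hw 0 s).mul_const _).add ((hw 1 s).mul_const _)).add ((hw 2 s).mul_const _)
  have hl' : Continuous fun s => Blk.lam (w' s) V :=
    (((hw' 0).mul continuous_const).add ((hw' 1).mul continuous_const)).add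
      ((hw' 2).mul continuous_const)
  have hls : ∀ s ∈ Icc a t, |Blk.lam (w' s) V| ≤ η * Blk.lam (w s) V := by
    intro s hs
    unfold Blk.lam
    refine (abs_add_three _ _ _).trans ?_
    simp only [abs_mul, abs_of_nonneg (cas_nonneg _)]
    have := mul_le_mul_of_nonneg_right (hws s hs 0) (cas_nonneg V.la)
    have := mul_le_mul_of_nonneg_right (hws s hs 1) (cas_nonneg V.lb)
    have := mul_le_mul_of_nonneg_right (hws s hs 2) (cas_nonneg V.lc)
    linarith
  obtain ⟨z, hz, hza, hzb, hzd⟩ := exists_slope_alphaFn hat hc hc' hl hl'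
    (fun s => by linarith [h.one_le_c s]) (h.lam_nonneg V) hη hη' hc4 hcs hls
    (y₀ := alphaFn (c a) (Blk.lam (w a) V)) (by simpa using hη)
  have hd := abs_slope_sub_le (E := 0) (k := k) h.cont_c (h.continuous_slope V) hz
    (h.continuous_lam V) (h.continuous_lam V) hk (fun s hs => ?_) (fun s _ => by simp)
    (fun s _ => h.slope_ode V s) hzd t (right_mem_Icc.2 hat)
  · rw [zero_div, add_zero, hza] at hd
    have hα : alphaFn (c a) (Blk.lam (w a) V) ≤ (2 * M + 1) * V.mu :=
      (alphaFn_le_sqrt (by linarith [h.one_le_c a]) (h.lam_nonneg V a)).trans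
        ((Real.sqrt_le_iff.2 ⟨(h.regData V).Z_nonneg, (h.regData V).le_sq a⟩))
    have h0 : |h.slope V a - alphaFn (c a) (Blk.lam (w a) V)| ≤ (2 * M + 1) * V.mu := by
      rw [abs_le]
      constructor <;> linarith [h.slope_nonneg V a, h.slope_le V a,
        alphaFn_nonneg (c := c a) (h.lam_nonneg V a)]
    calc |h.slope V t - alphaFn (c t) (Blk.lam (w t) V)|
        ≤ |h.slope V t - z t| + |z t - alphaFn (c t) (Blk.lam (w t) V)| := abs_sub_le _ _ _
      _ ≤ _ := by
        rw [add_comm (3 * η)]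
        exact add_le_add (hd.trans (mul_le_mul_of_nonneg_right h0 (Real.exp_pos _).le))
          (hzb t (right_mem_Icc.2 hat))
  · linarith [(abs_le.1 (hzb s hs)).1, h.slope_nonneg V s, hgain s hs]

/-- Blocks with the same first label and eigenvalues have the same slope. -/
theorem slope_congr {V V' : Blk} (hla : V.la = V'.la)
    (hl : ∀ t, Blk.lam (w t) V = Blk.lam (w t) V') : h.slope V = h.slope V' := by
  funext t
  have hev : ∀ᶠ a in atBot,
      |h.slope V t - h.slope V' t| ≤ (K * errC V + K * errC V') * rho a := by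
    filter_upwards [eventually_le_atBot t] with a hat
    refine (abs_slope_sub_le (E := 0) h.cont_c (h.continuous_slope V) (h.continuous_slope V')
      (h.continuous_lam V) (h.continuous_lam V') one_pos
      (fun s _ => by linarith [h.slope_nonneg V s, h.slope_nonneg V' s, h.one_le_c s])
      (fun s _ => by simp [hl s]) (fun s _ => h.slope_ode V s) (fun s _ => h.slope_ode V' s)
      t (right_mem_Icc.2 hat)).trans ?_
    rw [zero_div, add_zero, add_mul]
    refine (mul_le_of_le_one_right (abs_nonneg _) (Real.exp_le_one_iff.2 (by linarith))).trans ?_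
    refine (abs_sub_le _ (V.la : ℝ) _).trans (add_le_add (h.abs_slope_sub_la V a) ?_)
    rw [hla, abs_sub_comm]
    exact h.abs_slope_sub_la V' a
  have := ge_of_tendsto (tendsto_rho.const_mul (K * errC V + K * errC V')) hev
  rw [mul_zero] at this
  linarith [abs_eq_zero.1 (le_antisymm this (abs_nonneg _))]

/-! ### The regular solution -/

/-- The regular solution with value one at `b`. -/
def coef (b : ℝ) (t : ℝ) : ℝ := Real.exp (prim (h.slope V) b t)

theorem coef_self (b : ℝ) : h.coef V b b = 1 := by simp [coef]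

theorem coef_pos (b t : ℝ) : 0 < h.coef V b t := Real.exp_pos _

theorem coef_trans (b b' t : ℝ) : h.coef V b t = h.coef V b b' * h.coef V b' t := by
  simp only [coef, ← Real.exp_add, prim]
  rw [intervalIntegral.integral_add_adjacent_intervals
    ((h.continuous_slope V).intervalIntegrable _ _) ((h.continuous_slope V).intervalIntegrable _ _)]

theorem hasDerivAt_coef (b t : ℝ) :
    HasDerivAt (h.coef V b) (h.slope V t * h.coef V b t) t :=
  (hasDerivAt_prim (h.continuous_slope V) b t).exp.congr_deriv (mul_comm _ _)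

theorem deriv_coef (b : ℝ) : deriv (h.coef V b) = fun t => h.slope V t * h.coef V b t :=
  funext fun t => (h.hasDerivAt_coef V b t).deriv

/-- The mode equation. -/
theorem hasDerivAt_deriv_coef (b t : ℝ) : HasDerivAt (deriv (h.coef V b))
    (Blk.lam (w t) V * h.coef V b t - c t * deriv (h.coef V b) t) t := by
  rw [deriv_coef]
  refine ((h.hasDerivAt_slope V t).mul (h.hasDerivAt_coef V b t)).congr_deriv ?_
  ring

theorem contDiff_coef (b : ℝ) : ContDiff ℝ 2 (h.coef V b) := by
  have hcc : Continuous (h.coef V b) :=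
    continuous_iff_continuousAt.2 fun t => (h.hasDerivAt_coef V b t).continuousAt
  rw [show (2 : WithTop ℕ∞) = 1 + 1 by rfl, contDiff_succ_iff_deriv]
  refine ⟨fun t => (h.hasDerivAt_coef V b t).differentiableAt, by simp, ?_⟩
  rw [contDiff_one_iff_deriv]
  refine ⟨fun t => (h.hasDerivAt_deriv_coef V b t).differentiableAt, ?_⟩
  rw [funext fun t => (h.hasDerivAt_deriv_coef V b t).deriv, deriv_coef]
  exact ((h.continuous_lam V).mul hcc).sub (h.cont_c.mul ((h.continuous_slope V).mul hcc))

theorem coef_le_one {b t : ℝ} (ht : t ≤ b) : h.coef V b t ≤ 1 := by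
  refine Real.exp_le_one_iff.2 ?_
  rw [prim, intervalIntegral.integral_symm]
  exact neg_nonpos.2 (intervalIntegral.integral_nonneg ht fun s _ => h.slope_nonneg V s)

theorem abs_deriv_coef_le (b t : ℝ) :
    |deriv (h.coef V b) t| ≤ (2 * M + 1) * V.mu * h.coef V b t := by
  rw [deriv_coef, abs_mul, abs_of_nonneg (h.slope_nonneg V t),
    abs_of_pos (h.coef_pos V b t)]
  exact mul_le_mul_of_nonneg_right (h.slope_le V t) (h.coef_pos V b t).le

theorem abs_deriv_deriv_coef_le (b t : ℝ) :
    |deriv (deriv (h.coef V b)) t| ≤ (3 * M + M * (2 * M + 1)) * V.mu ^ 2 * h.coef V b t := by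
  have hM := h.one_le_M
  have hp := h.coef_pos V b t
  have hmu := Blk.one_le_mu V
  rw [(h.hasDerivAt_deriv_coef V b t).deriv]
  refine (abs_sub _ _).trans ?_
  rw [abs_mul, abs_mul, abs_of_nonneg (h.lam_nonneg V t), abs_of_pos hp,
    abs_of_nonneg (by linarith [h.one_le_c t] : 0 ≤ c t)]
  have h1 := mul_le_mul_of_nonneg_right (h.lam_le V t) hp.le
  have h2 := mul_le_mul (h.c_le t) (h.abs_deriv_coef_le V b t) (abs_nonneg _) (by linarith)
  have h3 : M * ((2 * M + 1) * V.mu * h.coef V b t) ≤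
      M * ((2 * M + 1) * V.mu ^ 2 * h.coef V b t) := by
    gcongr
    exact le_self_pow₀ hmu two_ne_zero
  nlinarith

/-- Decay towards the core. -/
theorem coef_mul_exp_le {b t : ℝ} (ht : t ≤ b) :
    h.coef V b t * Real.exp (-(V.la * t)) ≤ Real.exp (V.la * (K / 2 * rho b - b)) := by
  have hd : ∀ s, HasDerivAt
      (fun s => prim (h.slope V) b s - V.la * s + K * V.la / 2 * rho s)
      (h.slope V s - V.la + K * V.la * rho s) s := fun s => by
    refine (((hasDerivAt_prim (h.continuous_slope V) b s).sub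
      ((hasDerivAt_id s).const_mul (V.la : ℝ))).add
      ((hasDerivAt_rho s).const_mul (K * V.la / 2))).congr_deriv ?_
    ring
  have hm := monotone_of_hasDerivAt_nonneg hd fun s => by
    simp only [Pi.zero_apply]
    linarith [h.le_slope V s]
  have h1 : prim (h.slope V) b t - V.la * t + K * V.la / 2 * rho t ≤
      prim (h.slope V) b b - V.la * b + K * V.la / 2 * rho b := hm ht
  have h2 : 0 ≤ K * V.la / 2 * rho t :=
    mul_nonneg (div_nonneg (mul_nonneg h.K_nonneg (Nat.cast_nonneg _)) two_pos.le) (rho_pos t).le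
  rw [prim_self] at h1
  rw [coef, ← Real.exp_add]
  exact Real.exp_le_exp.2 (by linarith)

/-! ### The slope at the core -/

/-- `(slope - la) / e^{2t}`. -/
def quot (t : ℝ) : ℝ := (h.slope V t - V.la) / rho t

/-- Its derivative. -/
def quot' (t : ℝ) : ℝ :=
  -(h.slope V t + V.la + c t + 2) * h.quot V t
    + (Blk.lam (w t) V - (V.la : ℝ) ^ 2 - c t * V.la) / rho t

theorem hasDerivAt_quot (t : ℝ) : HasDerivAt (h.quot V) (h.quot' V t) t := by
  refine (((h.hasDerivAt_slope V t).sub_const _).div (hasDerivAt_rho t)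
    (rho_pos t).ne').congr_deriv ?_
  have := (rho_pos t).ne'
  simp only [quot', quot]
  field_simp
  ring

theorem abs_quot_le (t : ℝ) : |h.quot V t| ≤ 4 * K * V.mu ^ 2 := by
  rw [quot, abs_div, abs_of_pos (rho_pos t), div_le_iff₀ (rho_pos t)]
  refine (h.abs_slope_sub_la V t).trans (mul_le_mul_of_nonneg_right ?_ (rho_pos t).le)
  nlinarith [errC_le V, h.K_nonneg]

theorem abs_err_div_le (h : CapData w c K M) (V : Blk) (t : ℝ) :
    |(Blk.lam (w t) V - (V.la : ℝ) ^ 2 - c t * V.la) / rho t| ≤ 4 * K * V.mu ^ 2 := by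
  rw [abs_div, abs_of_pos (rho_pos t), div_le_iff₀ (rho_pos t)]
  refine ((h.regData V).err t).trans (mul_le_mul_of_nonneg_right ?_ (rho_pos t).le)
  nlinarith [errC_le V, h.K_nonneg]

theorem abs_quot'_le (t : ℝ) : |h.quot' V t| ≤ (3 * M + 5) * (4 * K) * V.mu ^ 3 := by
  have hM := h.one_le_M
  have hmu := Blk.one_le_mu V
  have hE : 0 ≤ 4 * K * V.mu ^ 2 := by have := h.K_nonneg; positivity
  have hla : (0 : ℝ) ≤ V.la := Nat.cast_nonneg _
  have hz := h.slope_nonneg V t
  have hc := h.one_le_c t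
  have hκ : h.slope V t + V.la + c t + 2 ≤ (3 * M + 4) * V.mu := by
    nlinarith [h.slope_le V t, la_le_mu V, h.c_le t]
  refine (abs_add_le _ _).trans ?_
  rw [abs_mul, abs_neg, abs_of_nonneg (by linarith : 0 ≤ h.slope V t + V.la + c t + 2)]
  refine (add_le_add (mul_le_mul hκ (h.abs_quot_le V t) (abs_nonneg _) (by positivity))
    ((h.abs_err_div_le V t).trans (le_mul_of_one_le_left hE hmu))).trans (le_of_eq ?_)
  ring

/-- The expansion `slope = la + L e^{2t} + o(e^{2t})`. -/
theorem tendsto_quot : ∃ L, Tendsto (h.quot V) atBot (𝓝 L) ∧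
    Tendsto (h.quot' V) atBot (𝓝 0) := by
  choose f hf using h.lim_w
  obtain ⟨f', hf'⟩ := h.lim_c
  set e0 := f 0 * Blk.cas V.la + f 1 * Blk.cas V.lb + f 2 * Blk.cas V.lc - (V.la : ℝ) * f'
  have hρ : ∀ t, rho t ≠ 0 := fun t => (rho_pos t).ne'
  have he : Tendsto (fun t => (Blk.lam (w t) V - (V.la : ℝ) ^ 2 - c t * V.la) / rho t)
      atBot (𝓝 e0) := by
    refine ((((hf 0).mul_const _).add ((hf 1).mul_const _)).add ((hf 2).mul_const _)
      |>.sub (hf'.const_mul _)).congr fun t => ?_
    rw [lam_sub_eq]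
    simp only [Matrix.cons_val_zero, Matrix.cons_val_one, Matrix.cons_val, sub_zero]
    field_simp
    ring
  have hc2 : Tendsto c atBot (𝓝 2) := by
    rw [tendsto_iff_dist_tendsto_zero]
    exact squeeze_zero (fun t => dist_nonneg) (fun t => h.near_c t)
      (by simpa using tendsto_rho.const_mul K)
  have hκ : Tendsto (fun t => h.slope V t + V.la + c t + 2) atBot
      (𝓝 ((V.la : ℝ) + V.la + 2 + 2)) :=
    (((h.tendsto_slope V).add_const _).add hc2).add_const _
  have hpos : (0 : ℝ) < (V.la : ℝ) + V.la + 2 + 2 := by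
    linarith [(Nat.cast_nonneg V.la : (0 : ℝ) ≤ _)]
  set L := e0 / ((V.la : ℝ) + V.la + 2 + 2)
  have hκc : Continuous fun t => h.slope V t + V.la + c t + 2 :=
    (((h.continuous_slope V).add continuous_const).add h.cont_c).add continuous_const
  have hg : Tendsto (fun t => (h.slope V t + V.la + c t + 2) * L
      - (Blk.lam (w t) V - (V.la : ℝ) ^ 2 - c t * V.la) / rho t) atBot (𝓝 0) := by
    have := (hκ.mul_const L).sub he
    rwa [show ((V.la : ℝ) + V.la + 2 + 2) * L - e0 = 0 by
      simp only [L]; field_simp; ring] at this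
  have hq : Tendsto (fun t => h.quot V t - L) atBot (𝓝 0) :=
    tendsto_zero_atBot (T := 0) (B := 4 * K * V.mu ^ 2 + |L|) (g := fun t =>
      (h.slope V t + V.la + c t + 2) * L
        - (Blk.lam (w t) V - (V.la : ℝ) ^ 2 - c t * V.la) / rho t) hκc
      ((hκc.mul continuous_const).sub ((((h.continuous_lam V).sub continuous_const).sub
        (h.cont_c.mul continuous_const)).div₀ continuous_rho hρ))
      (fun t => by
        linarith [h.slope_nonneg V t, h.one_le_c t, (Nat.cast_nonneg V.la : (0 : ℝ) ≤ _)])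
      (fun t => ((h.hasDerivAt_quot V t).sub_const L).congr_deriv (by simp only [quot']; ring))
      (fun t _ => (abs_sub _ _).trans (by linarith [h.abs_quot_le V t])) hg
  have hqL : Tendsto (h.quot V) atBot (𝓝 L) := by simpa using hq.add_const L
  refine ⟨L, hqL, ?_⟩
  have hlim := (hκ.neg.mul hqL).add he
  rwa [show -((V.la : ℝ) + V.la + 2 + 2) * L + e0 = 0 by
    simp only [L]; field_simp; ring] at hlim

end CapData

end

end Vale.Agent.P225.Cap
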