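import Vale.Agent.P225.Ode.Slope

/-!
P225, module 15c (helper27): the regular slope of `u'' + c u' = l u` at `t = -∞`.

If `|l - a² - c a| ≤ E e^{2t}` there is a slope `z` on all of `ℝ` with `|z - a| ≤ E e^{2t}`: the limit
of the slopes starting with the value `a` at `t = -n`.
-/

open MeasureTheory Set Filter Topology

namespace Vale.Agent.P225.Cap

open Ode

noncomputable section

/-- The squared radius `e^{2t}`. -/
def rho (t : ℝ) : ℝ := Real.exp (2 * t)

theorem rho_pos (t : ℝ) : 0 < rho t := Real.exp_pos _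

theorem rho_mono {s t : ℝ} (h : s ≤ t) : rho s ≤ rho t := Real.exp_le_exp.2 (by linarith)

theorem continuous_rho : Continuous rho := by unfold rho; fun_prop

theorem tendsto_rho : Tendsto rho atBot (𝓝 0) :=
  Real.tendsto_exp_atBot.comp (tendsto_id.const_mul_atBot (by norm_num : (0 : ℝ) < 2))

theorem hasDerivAt_rho (t : ℝ) : HasDerivAt rho (2 * rho t) t := by
  refine ((hasDerivAt_id t).const_mul 2).exp.congr_deriv ?_
  simp [rho]
  ring

variable {c l κ y y' : ℝ → ℝ} {a b : ℝ}

/-- One-sided comparison for a first order equation. -/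
theorem nonneg_of_hasDerivAt (hκ : Continuous κ) (hy : ∀ t ∈ Icc a b, HasDerivAt y (y' t) t)
    (h : ∀ t ∈ Icc a b, 0 ≤ y' t + κ t * y t) (ha : 0 ≤ y a) : ∀ t ∈ Icc a b, 0 ≤ y t := by
  intro t ht
  have hd : ∀ s ∈ Icc a b, HasDerivAt (fun s => Real.exp (prim κ a s) * y s)
      (Real.exp (prim κ a s) * (y' s + κ s * y s)) s := fun s hs =>
    ((hasDerivAt_prim hκ a s).exp.mul (hy s hs)).congr_deriv (by ring)
  have hm : MonotoneOn (fun s => Real.exp (prim κ a s) * y s) (Icc a b) :=
    monotoneOn_of_hasDerivWithinAt_nonneg (convex_Icc a b)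
      (fun s hs => (hd s hs).continuousAt.continuousWithinAt)
      (fun s hs => (hd s (interior_subset hs)).hasDerivWithinAt)
      (fun s hs => mul_nonneg (Real.exp_pos _).le (h s (interior_subset hs)))
  have := hm (left_mem_Icc.2 (ht.1.trans ht.2)) ht ht.1
  simp only [prim_self, Real.exp_zero, one_mul] at this
  exact nonneg_of_mul_nonneg_right (ha.trans this) (Real.exp_pos _)

theorem le_linSol {e : ℝ → ℝ} {y₀ t : ℝ} (hat : a ≤ t) (he : ∀ s ∈ Icc a t, e s ≤ 0) :
    Real.exp (-prim κ a t) * y₀ ≤ linSol κ e a y₀ t := by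
  have hi : ∫ s in a..t, Real.exp (prim κ a s) * e s ≤ 0 := by
    rw [← neg_nonneg, ← intervalIntegral.integral_neg]
    exact intervalIntegral.integral_nonneg hat fun s hs =>
      neg_nonneg.2 (mul_nonpos_of_nonneg_of_nonpos (Real.exp_pos _).le (he s hs))
  exact mul_le_mul_of_nonneg_left (by linarith) (Real.exp_pos _).le

/-- Data of a radial equation which is regular singular at `t = -∞` with indicial root `la`. -/
structure RegData (c l : ℝ → ℝ) (la Z E : ℝ) : Prop where
  cont_c : Continuous c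
  cont_l : Continuous l
  one_le : ∀ t, 1 ≤ c t
  nonneg : ∀ t, 0 ≤ l t
  la_nonneg : 0 ≤ la
  la_le : la ≤ Z
  le_sq : ∀ t, l t ≤ Z ^ 2
  err : ∀ t, |l t - la ^ 2 - c t * la| ≤ E * rho t

/-- A slope on `[a, b]`. -/
structure IsSlopeOn (c l : ℝ → ℝ) (a b : ℝ) (z : ℝ → ℝ) : Prop where
  cont : Continuous z
  nonneg : ∀ t ∈ Icc a b, 0 ≤ z t
  ode : ∀ t ∈ Icc a b, HasDerivAt z (l t - c t * z t - z t ^ 2) t

namespace RegData

variable {la Z E : ℝ}

theorem E_nonneg (h : RegData c l la Z E) : 0 ≤ E :=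
  nonneg_of_mul_nonneg_left ((abs_nonneg _).trans (h.err 0)) (rho_pos 0)

theorem Z_nonneg (h : RegData c l la Z E) : 0 ≤ Z := h.la_nonneg.trans h.la_le

/-- A slope with value `la` at the left end, by a weighted contraction for the linear equation. -/
theorem exists_segment (h : RegData c l la Z E) (hab : a ≤ b) :
    ∃ z, z a = la ∧ IsSlopeOn c l a b z := by
  set L := Z + 1 with hLdef
  have hL : 0 < L := by linarith [h.Z_nonneg]
  have hk : 0 < L + 1 := by linarith
  have hκ : Continuous fun t => c t + L := h.cont_c.add continuous_const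
  let W : C(Icc a b, ℝ) → ℝ → ℝ := fun f =>
    linSol (fun t => c t + L) (fun s => -(l s * max (IccExtend hab f s) 0)) a la
  have hWe : ∀ f : C(Icc a b, ℝ),
      Continuous fun s => -(l s * max (IccExtend hab f s) 0) := fun f =>
    (h.cont_l.mul (f.continuous.Icc_extend'.max continuous_const)).neg
  have hW : ∀ f, Continuous (W f) := fun f => continuous_linSol hκ (hWe f) a la
  let v : C(Icc a b, ℝ) → ℝ → ℝ := fun f => linSol (fun _ => L) (fun s => -W f s) a 1
  have hv : ∀ f, Continuous (v f) := fun f =>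
    continuous_linSol continuous_const (hW f).neg a 1
  let T : C(Icc a b, ℝ) → C(Icc a b, ℝ) := fun f =>
    ⟨fun t => v f t, (hv f).comp continuous_subtype_val⟩
  have hK : (Z ^ 2 / ((L + 1) * L)).toNNReal < 1 := by
    rw [Real.toNNReal_lt_one, div_lt_one (mul_pos hk hL)]
    rw [hLdef]; nlinarith [h.Z_nonneg]
  have hT : ContractingWith (Z ^ 2 / ((L + 1) * L)).toNNReal T := by
    refine ⟨hK, LipschitzWith.of_dist_le_mul fun f g => ?_⟩
    rw [Real.coe_toNNReal _ (by positivity)]
    have hdW : ∀ s ∈ Icc a b, |W f s - W g s| ≤ Z ^ 2 * dist f g / (L + 1) := by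
      intro s hs
      simp only [W]
      rw [linSol_sub hκ (hWe f) (hWe g)]
      refine (abs_linSol_le (E := Z ^ 2 * dist f g) hκ ((hWe f).sub (hWe g)) hk hs.1
        (fun x _ => by linarith [h.one_le x]) fun x hx => ?_).trans (by simp)
      simp only [Pi.sub_apply]
      rw [show -(l x * max (IccExtend hab f x) 0) - -(l x * max (IccExtend hab g x) 0)
        = l x * (max (IccExtend hab g x) 0 - max (IccExtend hab f x) 0) by ring, abs_mul,
        abs_of_nonneg (h.nonneg x)]
      refine mul_le_mul (h.le_sq x) ?_ (abs_nonneg _) (sq_nonneg _)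
      refine (abs_max_sub_max_le_abs _ _ _).trans ?_
      rw [IccExtend_apply, IccExtend_apply, ← Real.dist_eq, dist_comm f g]
      exact ContinuousMap.dist_apply_le_dist _
    rw [ContinuousMap.dist_le (by positivity)]
    intro t
    simp only [T, ContinuousMap.coe_mk, Real.dist_eq, v]
    rw [linSol_sub (κ := fun _ => L) continuous_const (e := fun s => -W f s)
      (e' := fun s => -W g s) (hW f).neg (hW g).neg]
    refine (abs_linSol_le (E := Z ^ 2 * dist f g / (L + 1)) continuous_const
      ((hW f).neg.sub (hW g).neg) hL t.2.1 (fun _ _ => le_rfl) fun s hs => ?_).trans ?_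
    · simp only [Pi.sub_apply, Pi.neg_apply]
      rw [show -W f s - -W g s = -(W f s - W g s) by ring, abs_neg]
      exact hdW s ⟨hs.1, hs.2.trans t.2.2⟩
    · simp [div_div, mul_div_right_comm]
  let f := ContractingWith.fixedPoint T hT
  have hfix : T f = f := hT.fixedPoint_isFixedPt
  set u := v f with hu
  have huf : ∀ t, ∀ ht : t ∈ Icc a b, u t = f ⟨t, ht⟩ := fun t ht => by
    conv_rhs => rw [← hfix]
    rfl
  have hW0 : ∀ t, a ≤ t → 0 ≤ W f t := fun t ht =>
    le_trans (mul_nonneg (Real.exp_pos _).le h.la_nonneg)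
      (le_linSol ht fun s _ => neg_nonpos.2 (mul_nonneg (h.nonneg s) (le_max_right _ _)))
  have hpos : ∀ t ∈ Icc a b, Real.exp (-(L * (b - a))) ≤ u t := by
    intro t ht
    have hp : prim (fun _ => L) a t ≤ L * (b - a) := by
      simp only [prim, intervalIntegral.integral_const, smul_eq_mul]
      nlinarith [ht.2]
    refine le_trans ?_ (le_linSol ht.1 fun s hs => neg_nonpos.2 (hW0 s hs.1))
    rw [mul_one]
    exact Real.exp_le_exp.2 (by linarith)
  set ε := Real.exp (-(L * (b - a))) / 2
  have hε : 0 < ε := by positivity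
  have hlt : ∀ t ∈ Icc a b, ε < u t := fun t ht => by
    have : ε < Real.exp (-(L * (b - a))) := half_lt_self (Real.exp_pos _)
    exact this.trans_le (hpos t ht)
  refine ⟨fun t => W f t / max (u t) ε, ?_, (hW f).div₀ ((hv f).max continuous_const)
    fun t => (lt_max_of_lt_right hε).ne', fun t ht => div_nonneg (hW0 t ht.1)
    (hε.le.trans (le_max_right _ _)), fun t ht => ?_⟩
  · have := hlt a (left_mem_Icc.2 hab)
    simp only [max_eq_left this.le]
    simp [hu, v, W]
  · have hne : u t ≠ 0 := (hε.trans (hlt t ht)).ne'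
    have he : (fun s => W f s / max (u s) ε) =ᶠ[𝓝 t] fun s => W f s / u s := by
      filter_upwards [(hv f).continuousAt.eventually (eventually_gt_nhds (hlt t ht))] with s hs
      rw [max_eq_left (le_of_lt hs)]
    refine HasDerivAt.congr_of_eventuallyEq (HasDerivAt.congr_deriv
      ((hasDerivAt_linSol hκ (hWe f) a la t).div
        (hasDerivAt_linSol continuous_const (hW f).neg a 1 t) hne) ?_) he
    simp only [max_eq_left (hlt t ht).le]
    have hmax : max (IccExtend hab f t) 0 = u t := by
      rw [IccExtend_of_mem hab f ht, ← huf t ht, max_eq_left (hε.trans (hlt t ht)).le]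
    rw [hmax]
    show ((-(c t + L) * W f t - -(l t * u t)) * u t - W f t * (-L * u t - -W f t)) / u t ^ 2 = _
    field_simp
    ring

/-- Distance to the indicial root along a slope. -/
theorem abs_sub_le (h : RegData c l la Z E) {z : ℝ → ℝ} (hz : IsSlopeOn c l a b z) :
    ∀ t ∈ Icc a b, |z t - la| ≤ |z a - la| + E * rho t := by
  intro t ht
  -- the continuous replacement `max z 0` of `z` keeps the gain above one everywhere
  have hκ : Continuous fun s => max (z s) 0 + la + c s :=
    ((hz.cont.max continuous_const).add continuous_const).add h.cont_c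
  have he : Continuous fun s => -(l s - la ^ 2 - c s * la) :=
    ((h.cont_l.sub continuous_const).sub (h.cont_c.mul continuous_const)).neg
  have heq := eq_linSol (y := fun s => z s - la) (b := b) hκ he (fun s hs =>
    ((hz.ode s hs).sub_const la).congr_deriv (by rw [max_eq_left (hz.nonneg s hs)]; ring)) t ht
  have hb := abs_linSol_le (y₀ := z a - la) (E := E * rho t) hκ he one_pos ht.1
    (fun s _ => by linarith [h.one_le s, le_max_right (z s) 0, h.la_nonneg])
    (fun s hs => by
      rw [abs_neg]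
      exact (h.err s).trans (mul_le_mul_of_nonneg_left (rho_mono hs.2) h.E_nonneg))
  rw [heq]
  refine hb.trans ?_
  rw [div_one]
  gcongr
  exact mul_le_of_le_one_right (abs_nonneg _) (Real.exp_le_one_iff.2 (by linarith [ht.1]))

/-- A slope stays below `Z`. -/
theorem le_Z (h : RegData c l la Z E) {z : ℝ → ℝ} (hz : IsSlopeOn c l a b z) (ha : z a ≤ Z) :
    ∀ t ∈ Icc a b, z t ≤ Z := by
  intro t ht
  have := nonneg_of_hasDerivAt (κ := fun s => c s + z s + Z) (y := fun s => Z - z s)
    ((h.cont_c.add hz.cont).add continuous_const)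
    (fun s hs => (hz.ode s hs).const_sub Z)
    (fun s _ => by nlinarith [h.le_sq s, h.one_le s, h.Z_nonneg]) (by linarith) t ht
  linarith

/-- The regular slope. -/
theorem exists_regular (h : RegData c l la Z E) :
    ∃ z : ℝ → ℝ, (∀ t, HasDerivAt z (l t - c t * z t - z t ^ 2) t) ∧ (∀ t, 0 ≤ z t) ∧
      (∀ t, z t ≤ Z) ∧ ∀ t, |z t - la| ≤ E * rho t := by
  choose z hza hz using fun n : ℕ =>
    h.exists_segment (a := -(n : ℝ)) (b := n) (neg_le_self (Nat.cast_nonneg n))
  set δ : ℕ → ℝ := fun n => E * rho (-(n : ℝ))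
  have hδ : Tendsto δ atTop (𝓝 0) := by
    have := ((tendsto_rho.comp tendsto_neg_atTop_atBot).comp
      tendsto_natCast_atTop_atTop).const_mul E
    simpa [δ, Function.comp_def] using this
  have hδ0 : ∀ n, 0 ≤ δ n := fun n => mul_nonneg h.E_nonneg (rho_pos _).le
  have hdiff : ∀ n m : ℕ, n ≤ m → ∀ t ∈ Icc (-(n : ℝ)) n, |z m t - z n t| ≤ δ n := by
    intro n m hnm t ht
    have hsub : Icc (-(n : ℝ)) n ⊆ Icc (-(m : ℝ)) m :=
      Icc_subset_Icc (by simpa using hnm) (by simpa using hnm)
    have h0 := h.abs_sub_le (hz m) (-(n : ℝ)) (hsub ⟨le_rfl, ht.1.trans ht.2⟩)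
    rw [hza m, sub_self, abs_zero, zero_add] at h0
    refine (abs_slope_sub_le (E := 0) h.cont_c (hz m).cont (hz n).cont h.cont_l h.cont_l one_pos
      (fun s hs => ?_) (fun s _ => by simp) (fun s hs => ⟨_, (hz m).ode s (hsub hs), by ring⟩)
      (fun s hs => ⟨_, (hz n).ode s hs, by ring⟩) t ht).trans ?_
    · linarith [h.one_le s, (hz m).nonneg s (hsub hs), (hz n).nonneg s hs]
    · rw [zero_div, add_zero, hza n]
      exact (mul_le_of_le_one_right (abs_nonneg _)
        (Real.exp_le_one_iff.2 (by linarith [ht.1]))).trans h0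
  have hmem : ∀ t : ℝ, ∀ᶠ n : ℕ in atTop, t ∈ Icc (-(n : ℝ)) n := by
    intro t
    filter_upwards [tendsto_natCast_atTop_atTop.eventually_ge_atTop |t|] with n hn
    exact abs_le.1 hn
  have hlim : ∀ t, ∃ x, Tendsto (fun n => z n t) atTop (𝓝 x) := by
    intro t
    obtain ⟨N, hN⟩ := eventually_atTop.1 (hmem t)
    refine cauchySeq_tendsto_of_complete (Metric.cauchySeq_iff'.2 fun ε hε => ?_)
    obtain ⟨N', hN'⟩ := eventually_atTop.1 (hδ.eventually (eventually_lt_nhds hε))
    refine ⟨max N N', fun n hn => ?_⟩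
    rw [Real.dist_eq]
    exact (hdiff _ n hn t (hN _ (le_max_left _ _))).trans_lt (hN' _ (le_max_right _ _))
  choose g hg using hlim
  have hzZ : ∀ n : ℕ, ∀ t ∈ Icc (-(n : ℝ)) n, z n t ≤ Z := fun n =>
    h.le_Z (hz n) ((hza n).le.trans h.la_le)
  have hgn : ∀ n : ℕ, ∀ t ∈ Icc (-(n : ℝ)) n, |g t - z n t| ≤ δ n := fun n t ht =>
    le_of_tendsto (((hg t).sub_const _).abs)
      ((eventually_ge_atTop n).mono fun m hm => hdiff n m hm t ht)
  have hg0 : ∀ t, 0 ≤ g t := fun t =>
    ge_of_tendsto (hg t) ((hmem t).mono fun n hn => (hz n).nonneg t hn)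
  have hgZ : ∀ t, g t ≤ Z := fun t => le_of_tendsto (hg t) ((hmem t).mono fun n hn => hzZ n t hn)
  refine ⟨g, fun t => ?_, hg0, hgZ, fun t => le_of_tendsto ((hg t).sub_const la).abs
    ((hmem t).mono fun n hn => ?_)⟩
  · obtain ⟨N, hN⟩ := exists_nat_gt |t|
    obtain ⟨C, hC⟩ := isCompact_Icc.exists_bound_of_continuousOn
      (h.cont_c.continuousOn (s := Icc (-(N : ℝ)) N))
    have hsub : ∀ n ≥ N, Ioo (-(N : ℝ)) N ⊆ Icc (-(n : ℝ)) n := fun n hn =>
      Ioo_subset_Icc_self.trans (Icc_subset_Icc (by simpa using hn) (by simpa using hn))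
    refine hasDerivAt_of_tendstoUniformlyOn (l := atTop) (s := Ioo (-(N : ℝ)) N)
      (f := fun n => z n) (g' := fun s => l s - c s * g s - g s ^ 2)
      (f' := fun n s => l s - c s * z n s - z n s ^ 2) isOpen_Ioo ?_
      ((eventually_ge_atTop N).mono fun n hn s hs => (hz n).ode s (hsub n hn hs))
      (fun s _ => hg s) (abs_lt.1 hN)
    rw [Metric.tendstoUniformlyOn_iff]
    intro ε hε
    have h1 : Tendsto (fun n => (C + 2 * Z) * δ n) atTop (𝓝 0) := by
      simpa using hδ.const_mul (C + 2 * Z)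
    filter_upwards [eventually_ge_atTop N, h1.eventually (eventually_lt_nhds hε)] with n hn hn' s hs
    refine lt_of_le_of_lt ?_ hn'
    have hd := hgn n s (hsub n hn hs)
    have hcs : |c s| ≤ C := hC s (Ioo_subset_Icc_self hs)
    have h2 : |g s + z n s| ≤ 2 * Z := by
      rw [abs_of_nonneg (add_nonneg (hg0 s) ((hz n).nonneg s (hsub n hn hs)))]
      linarith [hgZ s, hzZ n s (hsub n hn hs)]
    rw [Real.dist_eq, show l s - c s * g s - g s ^ 2 - (l s - c s * z n s - z n s ^ 2)
      = -((c s + (g s + z n s)) * (g s - z n s)) by ring, abs_neg, abs_mul]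
    exact mul_le_mul ((abs_add_le _ _).trans (add_le_add hcs h2)) hd (abs_nonneg _)
      (by linarith [abs_nonneg (c s), h.Z_nonneg])
  · simpa [hza n] using h.abs_sub_le (hz n) t hn

end RegData

/-- A bounded solution on a left half line of `y' = -κ y - g` with `g → 0` at `-∞` tends to zero. -/
theorem tendsto_zero_atBot {g : ℝ → ℝ} {T B : ℝ} (hκ : Continuous κ) (hg : Continuous g)
    (hκ1 : ∀ t, 1 ≤ κ t) (hy : ∀ t, HasDerivAt y (-κ t * y t - g t) t)
    (hB : ∀ t ≤ T, |y t| ≤ B) (hg0 : Tendsto g atBot (𝓝 0)) : Tendsto y atBot (𝓝 0) := by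
  rw [Metric.tendsto_nhds]
  intro ε hε
  obtain ⟨S, hS⟩ := eventually_atBot.1 (Metric.tendsto_nhds.1 hg0 (ε / 2) (half_pos hε))
  filter_upwards [eventually_le_atBot (min S T)] with t ht
  rw [Real.dist_eq, sub_zero]
  refine lt_of_le_of_lt ?_ (half_lt_self hε)
  have hlim : Tendsto (fun a => B * Real.exp (-(1 * (t - a))) + ε / 2 / 1) atBot
      (𝓝 (B * 0 + ε / 2 / 1)) := by
    refine ((Real.tendsto_exp_atBot.comp ?_).const_mul B).add_const _
    exact (tendsto_atBot_add_const_left _ (-t) tendsto_id).congr fun a => by simp; ring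
  have key : ∀ᶠ a in atBot, |y t| ≤ B * Real.exp (-(1 * (t - a))) + ε / 2 / 1 := by
    filter_upwards [eventually_le_atBot t] with a hat
    have hts : t ≤ S := ht.trans (min_le_left _ _)
    have htT : t ≤ T := ht.trans (min_le_right _ _)
    rw [eq_linSol (b := t) hκ hg (fun s _ => hy s) t (right_mem_Icc.2 hat)]
    refine (abs_linSol_le (E := ε / 2) hκ hg one_pos hat (fun s _ => hκ1 s) fun s hs => ?_).trans ?_
    · have := hS s (hs.2.trans hts)
      rw [Real.dist_eq, sub_zero] at this
      exact this.le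
    · gcongr
      exact hB a (hat.trans htT)
  simpa using ge_of_tendsto hlim key

end

end Vale.Agent.P225.Cap
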